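import Mathlib
import Crest.Prelude.Def_Quasitrace

/-! Skeleton for S0188: definitions and the statements of the pieces. -/

set_option autoImplicit false

namespace Crest.Agent.QT

open scoped BigOperators
open Crest.OpAlg

/-- No left-invertible `m × (m+1)` matrix. -/
def RC (R : Type) [Ring R] : Prop :=
  ∀ (m : ℕ) (C : Matrix (Fin (m + 1)) (Fin m) R) (D : Matrix (Fin m) (Fin (m + 1)) R), C * D ≠ 1

/-- Letters: `(i, false)` is `x i`, `(i, true)` is `star (x i)`. -/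
abbrev L : Type := Fin 3 × Bool

/-- Noncommutative polynomials. -/
abbrev Poly : Type := List L →₀ ℂ

def letter {A : Type} [Star A] (x : Fin 3 → A) (l : L) : A :=
  cond l.2 (star (x l.1)) (x l.1)

def word {A : Type} [Monoid A] [Star A] (x : Fin 3 → A) (w : List L) : A :=
  (w.map (letter x)).prod

noncomputable def ev {A : Type} [Ring A] [Algebra ℂ A] [Star A] (x : Fin 3 → A) (p : Poly) : A :=
  p.sum fun w c => c • word x w

/-- The relations. -/
def Rel {A : Type} [NormedRing A] [Star A] (x : Fin 3 → A) : Prop :=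
  ∑ i, star (x i) * x i = 1 ∧ ‖∑ i, x i * star (x i)‖ ≤ 1 / 2

/-- A rank function on the elements of a ring. -/
structure IsRank {R : Type} [Ring R] (ρ : R → ℝ) : Prop where
  one : ρ 1 = 1
  zero : ρ 0 = 0
  nonneg : ∀ x, 0 ≤ ρ x
  mul : ∀ c x d, ρ (c * x * d) ≤ ρ x
  add : ∀ x y, ρ (x + y) ≤ ρ x + ρ y
  orth : ∀ z u u' v v', u * z * v' = 0 → v * z * u' = 0 → ρ (u * z * u') + ρ (v * z * v') ≤ ρ z

/-! ### Part U: the algebra -/

/-- The quadratic form of a certificate. -/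
noncomputable def Phi {V : Type} [AddCommGroup V] [Module ℝ V] (H P : LinearMap.BilinForm ℝ V)
    (θ : Fin 3 → LinearMap.BilinForm ℝ V) (v : V) (g h : Fin 3 → V) : ℝ :=
  (∑ i, H (g i) (g i)) - H v v + (1 / 2) * P v v - (∑ i, P (h i) (h i)) +
    ∑ i, (θ i (g i) v - θ i v (h i))

/-- U1: the inertia lemma. -/
def InertStmt : Prop :=
  ∀ (V : Type) [AddCommGroup V] [Module ℝ V] [FiniteDimensional ℝ V]
    (H P : LinearMap.BilinForm ℝ V) (θ : Fin 3 → LinearMap.BilinForm ℝ V),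
    (∀ a b, H a b = H b a) → (∀ a b, P a b = P b a) → (∀ v, v ≠ 0 → 0 < P v v) →
    ∃ N : Submodule ℝ (V × (Fin 3 → V) × (Fin 3 → V)),
      Module.finrank ℝ V ≤ Module.finrank ℝ N ∧
      ∀ z ∈ N, 0 ≤ Phi H P θ z.1 z.2.1 z.2.2 ∧ (z.1 = 0 → z ≠ 0 → 0 < Phi H P θ z.1 z.2.1 z.2.2)

/-- The free left module on `m + 1` generators over the noncommutative polynomials. -/
abbrev M (m : ℕ) : Type := (List L × Fin (m + 1)) →₀ ℂ

/-- Left multiplication by a letter. -/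
noncomputable def sh {m : ℕ} (l : L) : M m →ₗ[ℂ] M m :=
  Finsupp.lmapDomain ℂ ℂ fun a => (l :: a.1, a.2)

/-- The generators. -/
noncomputable def gen {m : ℕ} (j : Fin (m + 1)) : M m := Finsupp.single ([], j) 1

/-- A row of polynomials as an element of the free module. -/
noncomputable def row {m : ℕ} (d : Fin (m + 1) → Poly) : M m :=
  ∑ j, Finsupp.mapDomain (fun w => (w, j)) (d j)

/-- The real part `b` of a positive Hermitian form on the free module satisfying the relations. -/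
structure Good {m : ℕ} (b : LinearMap.BilinForm ℝ (M m)) : Prop where
  symm : ∀ u v, b u v = b v u
  nonneg : ∀ u, 0 ≤ b u u
  rot : ∀ u v, b (Complex.I • u) (Complex.I • v) = b u v
  adj : ∀ i u v, b (sh (i, false) u) v = b u (sh (i, true) v)
  eq : ∀ u, ∑ i, b (sh (i, false) u) (sh (i, false) u) = b u u
  le : ∀ u, ∑ i, b (sh (i, true) u) (sh (i, true) u) ≤ (1 / 2) * b u u
  norm : ∑ j, b (gen j) (gen j) = 1

/-- U2: forms killing `m` given rows. -/
def FormStmt : Prop :=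
  ∀ (m : ℕ) (D : Fin m → Fin (m + 1) → Poly),
    ∃ b : LinearMap.BilinForm ℝ (M m), Good b ∧ ∀ k, b (row (D k)) (row (D k)) = 0

/-- U3: representations with a kernel vector. -/
def PrimalStmt : Prop :=
  ∀ (m : ℕ) (D : Fin m → Fin (m + 1) → Poly),
    ∃ (H : Type) (_ : NormedAddCommGroup H) (_ : InnerProductSpace ℂ H) (_ : CompleteSpace H)
      (x : Fin 3 → H →L[ℂ] H) (ξ : Fin (m + 1) → H),
      Rel x ∧ ξ ≠ 0 ∧ ∀ k, ∑ j, ev x (D k j) (ξ j) = 0

/-- U4: the algebra. -/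
def UnivStmt : Prop :=
  ∃ (A : Type) (_ : CStarAlgebra A), TopologicalSpace.SeparableSpace A ∧ RC A ∧
    ∃ x : Fin 3 → A, Rel x

/-! ### Part Q: quasitraces from the rank condition -/

/-- Q1: rank functions exist. -/
def RankStmt : Prop := ∀ (R : Type) [Ring R], RC R → ∃ ρ : R → ℝ, IsRank ρ

/-- QA: the layer-cake functional of a rank function on `C(X, ℝ)` is linear. -/
def LayerStmt : Prop :=
  ∀ (X : Type) [TopologicalSpace X] [CompactSpace X] [T2Space X] (ν : C(X, ℝ) → ℝ), IsRank ν →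
    ∃ Λ : C(X, ℝ) →ₗ[ℝ] ℝ, Λ 1 = 1 ∧
      ∀ f : C(X, ℝ), ∫ t in Set.Ioi (0 : ℝ), ν ((f - algebraMap ℝ C(X, ℝ) t) ⊔ 0) = Λ (f ⊔ 0)

/-- QB: `x⋆x` and `xx⋆` have the same layers. -/
def SwapStmt : Prop :=
  ∀ (B : Type) [CStarAlgebra B] (ρ : B → ℝ), IsRank ρ → ∀ (x : B) (t : ℝ), 0 < t →
    ρ ((star x * x - algebraMap ℝ B t)⁺) = ρ ((x * star x - algebraMap ℝ B t)⁺)

/-- QC: a rank function gives a 1-quasitrace. -/
def OneStmt : Prop :=
  ∀ (B : Type) [CStarAlgebra B] (ρ : B → ℝ), IsRank ρ →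
    ∃ τ : B → ℂ, IsOneQuasitrace τ ∧ τ 1 = 1

/-- QD: the rank condition gives a 2-quasitrace. -/
def TwoStmt : Prop :=
  ∀ (A : Type) [CStarAlgebra A], RC A → ∃ τ : A → ℂ, IsNormalizedTwoQuasitrace τ

/-! ### Part L: the lower bound -/

def LowStmt : Prop :=
  ∀ (A : Type) [CStarAlgebra A] (x : Fin 3 → A), Rel x →
    ‖star (x 0) * x 0‖ ≤ 1 ∧ ‖star (x 1) * x 1‖ ≤ 1 ∧
    ∀ τ : A → ℂ, IsOneQuasitrace τ → τ 1 = 1 →
      (1 : ℝ) / 144 ≤
        (τ (star (x 0) * x 0 + star (x 1) * x 1) - τ (star (x 0) * x 0) - τ (star (x 1) * x 1)).re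

theorem assemble (hU : UnivStmt) (hT : TwoStmt) (hL : LowStmt) :
    ∃ (A : Type) (_ : CStarAlgebra A), TopologicalSpace.SeparableSpace A ∧
      (∃ τ : A → ℂ, Crest.OpAlg.IsNormalizedTwoQuasitrace τ) ∧
      ∃ a b : A, (∃ x : A, a = star x * x) ∧ ‖a‖ ≤ 1 ∧ (∃ y : A, b = star y * y) ∧ ‖b‖ ≤ 1 ∧
        ∀ τ : A → ℂ, Crest.OpAlg.IsNormalizedTwoQuasitrace τ →
          (1 : ℝ) / 144 ≤ (τ (a + b) - τ a - τ b).re := by
  obtain ⟨A, inst, hsep, hrc, x, hx⟩ := hU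
  obtain ⟨h0, h1, h⟩ := hL A x hx
  exact ⟨A, inst, hsep, hT A hrc, _, _, ⟨x 0, rfl⟩, h0, ⟨x 1, rfl⟩, h1,
    fun τ hτ => h τ hτ.1 hτ.2.1⟩

end Crest.Agent.QT
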