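import Crest.Agent.QT.Defs

/-! U2: positive forms on the free module killing given rows (Riesz extension). -/

set_option autoImplicit false

namespace Crest.Agent.QT

open scoped BigOperators InnerProductSpace TensorProduct
open Module

namespace FormP

variable {m : ℕ}

abbrev Bs (m : ℕ) : Type := List L × Fin (m + 1)
abbrev F (m : ℕ) : Type := Bs m → ℂ

noncomputable def app (f : F m) : M m →ₗ[ℂ] ℂ := Finsupp.linearCombination ℂ f

noncomputable def appL (u : M m) : F m →ₗ[ℝ] ℂ where
  toFun f := app f u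
  map_add' f g := by
    simp [app, Finsupp.linearCombination_apply, Finsupp.sum, Finset.sum_add_distrib, mul_add]
  map_smul' c f := by
    simp [app, Finsupp.linearCombination_apply, Finsupp.sum, Finset.mul_sum, mul_left_comm]

def sg (l : L) (f : F m) : F m := fun a => f (l :: a.1, a.2)

theorem app_sh (l : L) (f : F m) (u : M m) : app f (sh l u) = app (sg l f) u := by
  simp only [app, sh, Finsupp.lmapDomain_apply, Finsupp.linearCombination_mapDomain]
  rfl

theorem app_single (f : F m) (a : Bs m) (c : ℂ) : app f (Finsupp.single a c) = c * f a := by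
  simp [app]

noncomputable def be (u v : M m) : LinearMap.BilinForm ℝ (F m) :=
  (innerₗ ℂ).compl₁₂ (appL u) (appL v)

theorem be_apply (u v : M m) (f g : F m) : be u v f g = ⟪app f u, app g v⟫_ℝ := rfl

theorem app_rsmul (f : F m) (c : ℝ) (u : M m) : app f (c • u) = c • app f u :=
  (app f).map_smul_of_tower c u

noncomputable def Q : M m →ₗ[ℝ] M m →ₗ[ℝ] (F m → ℝ) :=
  LinearMap.mk₂ ℝ (fun u v f => be u v f f)
    (fun u u' v => by funext f; simp [be_apply, inner_add_left])
    (fun c u v => by funext f; simp only [be_apply, app_rsmul, real_inner_smul_left]; rfl)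
    (fun u v v' => by funext f; simp [be_apply, inner_add_right])
    (fun c u v => by funext f; simp only [be_apply, app_rsmul, real_inner_smul_right]; rfl)

theorem Q_apply (u v : M m) (f : F m) : Q u v f = ⟪app f u, app f v⟫_ℝ := rfl

def cut (n : ℕ) (f : F m) : F m := fun a => if a.1.length < n then f a else 0

def Supp (n : ℕ) (K : LinearMap.BilinForm ℝ (F m)) : Prop :=
  ∀ f g, K f g = K (cut n f) (cut n g)

theorem cut_cut {n n' : ℕ} (h : n ≤ n') (f : F m) : cut n (cut n' f) = cut n f := by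
  funext a
  simp only [cut]
  split_ifs with h1 h2
  · rfl
  · omega
  · rfl

theorem Supp.mono {n n' : ℕ} (h : n ≤ n') {K : LinearMap.BilinForm ℝ (F m)} (hK : Supp n K) :
    Supp n' K := fun f g => by
  rw [hK f g, hK (cut n' f), cut_cut h, cut_cut h]

theorem Supp.add {n : ℕ} {K K' : LinearMap.BilinForm ℝ (F m)} (hK : Supp n K) (hK' : Supp n K') :
    Supp n (K + K') := fun f g => by
  simp only [LinearMap.add_apply]
  rw [hK f g, hK' f g]

theorem Supp.smul {n : ℕ} {K : LinearMap.BilinForm ℝ (F m)} (hK : Supp n K) (c : ℝ) :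
    Supp n (c • K) := fun f g => by
  simp only [LinearMap.smul_apply]
  rw [hK f g]

theorem supp_zero (n : ℕ) : Supp n (0 : LinearMap.BilinForm ℝ (F m)) := fun _ _ => rfl

def Short (n : ℕ) (u : M m) : Prop := ∀ a ∈ u.support, a.1.length < n

theorem exists_short (u : M m) : ∃ n, Short n u :=
  ⟨u.support.sup (fun a => a.1.length) + 1, fun _ ha =>
    Nat.lt_succ_of_le (Finset.le_sup (f := fun a : Bs m => a.1.length) ha)⟩

theorem Short.mono {n n' : ℕ} (h : n ≤ n') {u : M m} (hu : Short n u) : Short n' u :=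
  fun a ha => (hu a ha).trans_le h

theorem app_cut {n : ℕ} {u : M m} (hu : Short n u) (f : F m) : app (cut n f) u = app f u := by
  simp only [app, Finsupp.linearCombination_apply, Finsupp.sum]
  refine Finset.sum_congr rfl fun a ha => ?_
  simp [cut, hu a ha]

theorem supp_be {n : ℕ} {u v : M m} (hu : Short n u) (hv : Short n v) : Supp n (be u v) :=
  fun f g => by rw [be_apply, be_apply, app_cut hu, app_cut hv]

theorem short_single {n : ℕ} (a : Bs m) (h : a.1.length < n) :
    Short n (Finsupp.single a (1 : ℂ) : M m) := fun b hb => by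
  rw [Finsupp.support_single _ one_ne_zero, Finset.mem_singleton] at hb
  rwa [hb]

noncomputable def Ph (H P : LinearMap.BilinForm ℝ (F m))
    (θ : Fin 3 → LinearMap.BilinForm ℝ (F m)) (f : F m) : ℝ :=
  Phi H P θ f (fun i => sg (i, false) f) (fun i => sg (i, true) f)

variable (D : Fin m → Fin (m + 1) → Poly)

def Ker (f : F m) : Prop := ∀ k, app f (row (D k)) = 0

def Dom (n : ℕ) (t : F m → ℝ) : Prop :=
  ∃ (H P : LinearMap.BilinForm ℝ (F m)) (θ : Fin 3 → LinearMap.BilinForm ℝ (F m)),
    Supp n H ∧ Supp n P ∧ (∀ i, Supp n (θ i)) ∧ (∀ a b, H a b = H b a) ∧ (∀ a b, P a b = P b a) ∧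
      (∀ f, 0 ≤ P f f) ∧ ∀ f, Ker D f → Ph H P θ f ≤ t f

variable {D}

theorem Dom.mono {n n' : ℕ} (h : n ≤ n') {t : F m → ℝ} (ht : Dom D n t) : Dom D n' t := by
  obtain ⟨H, P, θ, h1, h2, h3, h4⟩ := ht
  exact ⟨H, P, θ, h1.mono h, h2.mono h, fun i => (h3 i).mono h, h4⟩

theorem Dom.of_le {n : ℕ} {t t' : F m → ℝ} (ht : Dom D n t) (h : ∀ f, Ker D f → t f ≤ t' f) :
    Dom D n t' := by
  obtain ⟨H, P, θ, h1, h2, h3, h4, h5, h6, h7⟩ := ht
  exact ⟨H, P, θ, h1, h2, h3, h4, h5, h6, fun f hf => (h7 f hf).trans (h f hf)⟩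

theorem dom_nonneg (n : ℕ) {t : F m → ℝ} (h : ∀ f, Ker D f → 0 ≤ t f) : Dom D n t :=
  ⟨0, 0, 0, supp_zero n, supp_zero n, fun _ => supp_zero n, fun _ _ => rfl, fun _ _ => rfl,
    fun _ => le_rfl, fun f hf => by simpa [Ph, Phi] using h f hf⟩

theorem Dom.add {n : ℕ} {t t' : F m → ℝ} (ht : Dom D n t) (ht' : Dom D n t') :
    Dom D n (t + t') := by
  obtain ⟨H, P, θ, h1, h2, h3, h4, h5, h6, h7⟩ := ht
  obtain ⟨H', P', θ', h1', h2', h3', h4', h5', h6', h7'⟩ := ht'
  refine ⟨H + H', P + P', θ + θ', h1.add h1', h2.add h2', fun i => (h3 i).add (h3' i),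
    fun a b => ?_, fun a b => ?_, fun f => ?_, fun f hf => ?_⟩
  · simp only [LinearMap.add_apply, h4 a b, h4' a b]
  · simp only [LinearMap.add_apply, h5 a b, h5' a b]
  · exact add_nonneg (h6 f) (h6' f)
  · have a1 := h7 f hf
    have a2 := h7' f hf
    simp only [Ph, Phi, LinearMap.add_apply, Pi.add_apply, Fin.sum_univ_three] at a1 a2 ⊢
    linarith

theorem Dom.smul {n : ℕ} {t : F m → ℝ} (ht : Dom D n t) {c : ℝ} (hc : 0 ≤ c) :
    Dom D n (c • t) := by
  obtain ⟨H, P, θ, h1, h2, h3, h4, h5, h6, h7⟩ := ht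
  refine ⟨c • H, c • P, c • θ, h1.smul c, h2.smul c, fun i => (h3 i).smul c,
    fun a b => ?_, fun a b => ?_, fun f => ?_, fun f hf => ?_⟩
  · simp only [LinearMap.smul_apply, h4 a b]
  · simp only [LinearMap.smul_apply, h5 a b]
  · exact mul_nonneg hc (h6 f)
  · have a1 := mul_le_mul_of_nonneg_left (h7 f hf) hc
    simp only [Ph, Phi, LinearMap.smul_apply, Pi.smul_apply, Fin.sum_univ_three,
      smul_eq_mul] at a1 ⊢
    linarith

theorem dom_move (i : Fin 3) (u v : M m) :
    ∃ n, Dom D n (Q (sh (i, false) u) v - Q u (sh (i, true) v)) := by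
  obtain ⟨n, hn⟩ := exists_short u
  obtain ⟨n', hn'⟩ := exists_short v
  refine ⟨max n n', 0, 0, Pi.single i (be u v), supp_zero _, supp_zero _, fun k => ?_,
    fun _ _ => rfl, fun _ _ => rfl, fun _ => le_rfl, fun f _ => ?_⟩
  · by_cases h : k = i
    · subst h
      rw [Pi.single_eq_same]
      exact supp_be (hn.mono (le_max_left _ _)) (hn'.mono (le_max_right _ _))
    · rw [Pi.single_eq_of_ne h]
      exact supp_zero _
  · simp only [Ph, Phi, LinearMap.zero_apply, Finset.sum_const_zero, Pi.sub_apply, Q_apply, app_sh]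
    rw [Finset.sum_eq_single i]
    · simp only [Pi.single_eq_same, be_apply]
      linarith
    · intro k _ hk
      simp [Pi.single_eq_of_ne hk]
    · simp

theorem dom_eq {n : ℕ} {u : M m} (hu : Short n u) (c : ℝ) :
    Dom D n (c • ((∑ i, Q (sh (i, false) u) (sh (i, false) u)) - Q u u)) := by
  refine ⟨c • be u u, 0, 0, (supp_be hu hu).smul c, supp_zero _, fun _ => supp_zero _,
    fun a b => ?_, fun _ _ => rfl, fun _ => le_rfl, fun f _ => ?_⟩
  · simp only [LinearMap.smul_apply, be_apply, real_inner_comm]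
  · simp only [Ph, Phi, LinearMap.zero_apply, Pi.zero_apply, Pi.sub_apply, Q_apply, app_sh,
      Pi.smul_apply, Fin.sum_univ_three, Pi.add_apply, LinearMap.smul_apply, be_apply, smul_eq_mul]
    linarith

theorem dom_le {n : ℕ} {u : M m} (hu : Short n u) :
    Dom D n ((1 / 2 : ℝ) • Q u u - ∑ i, Q (sh (i, true) u) (sh (i, true) u)) := by
  refine ⟨0, be u u, 0, supp_zero _, supp_be hu hu, fun _ => supp_zero _,
    fun _ _ => rfl, fun a b => ?_, fun f => ?_, fun f _ => ?_⟩
  · simp only [be_apply, real_inner_comm]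
  · rw [be_apply]
    exact real_inner_self_nonneg
  · simp only [Ph, Phi, LinearMap.zero_apply, Pi.zero_apply, Pi.sub_apply, Q_apply, app_sh,
      Pi.smul_apply, Fin.sum_univ_three, Pi.add_apply, be_apply, smul_eq_mul]
    linarith

noncomputable def one (m : ℕ) : F m → ℝ := ∑ j, Q (gen j : M m) (gen j)

theorem Q_nonneg (u : M m) (f : F m) : 0 ≤ Q u u f := by
  rw [Q_apply]
  exact real_inner_self_nonneg

theorem Q_comm (u v : M m) : Q u v = Q v u := by
  funext f
  rw [Q_apply, Q_apply, real_inner_comm]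

theorem Q_rot (u v : M m) : Q (Complex.I • u) (Complex.I • v) = Q u v := by
  funext f
  simp only [Q_apply, map_smul, smul_eq_mul, Complex.inner, map_mul, Complex.conj_I]
  congr 1
  linear_combination (-(app f v * (starRingEnd ℂ) (app f u))) * Complex.I_mul_I

theorem sh_single (l : L) (w : List L) (j : Fin (m + 1)) :
    sh l (Finsupp.single (w, j) (1 : ℂ) : M m) = Finsupp.single (l :: w, j) 1 := by
  simp [sh]

theorem arch (w : List L) (j : Fin (m + 1)) (n : ℕ) (h : w.length ≤ n) :
    Dom D n (one m - Q (Finsupp.single (w, j) 1) (Finsupp.single (w, j) 1)) := by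
  induction w with
  | nil =>
    refine dom_nonneg n fun f _ => ?_
    simp only [one, Pi.sub_apply, Finset.sum_apply, sub_nonneg]
    exact Finset.single_le_sum (f := fun j => Q (gen j : M m) (gen j) f)
      (fun j _ => Q_nonneg _ _) (Finset.mem_univ j)
  | cons l w ih =>
    have h1 : w.length < n := h
    have hs := short_single (m := m) (w, j) h1
    rw [← sh_single]
    generalize (Finsupp.single (w, j) (1 : ℂ) : M m) = u at ih hs
    obtain ⟨i, _ | _⟩ := l
    · refine ((ih h1.le).add (dom_eq hs (-1))).of_le fun f _ => ?_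
      have := Finset.single_le_sum (f := fun i => Q (sh (i, false) u) (sh (i, false) u) f)
        (fun j _ => Q_nonneg _ _) (Finset.mem_univ i)
      simp only [Pi.add_apply, Pi.sub_apply, Pi.smul_apply, Finset.sum_apply, smul_eq_mul]
      linarith
    · refine ((ih h1.le).add (dom_le hs)).of_le fun f _ => ?_
      have := Finset.single_le_sum (f := fun i => Q (sh (i, true) u) (sh (i, true) u) f)
        (fun j _ => Q_nonneg _ _) (Finset.mem_univ i)
      have := Q_nonneg u f
      simp only [Pi.add_apply, Pi.sub_apply, Pi.smul_apply, Finset.sum_apply, smul_eq_mul]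
      linarith

theorem arch2 (u : M m) : ∃ (c : ℝ) (n : ℕ), Dom D n (c • one m - Q u u) := by
  induction u using Finsupp.induction_linear with
  | zero => exact ⟨0, 0, dom_nonneg _ fun f _ => by simp⟩
  | add u v hu hv =>
    obtain ⟨c, n, h⟩ := hu
    obtain ⟨c', n', h'⟩ := hv
    refine ⟨2 * c + 2 * c', max n n', (((h.mono (le_max_left _ _)).smul zero_le_two).add
      ((h'.mono (le_max_right _ _)).smul zero_le_two)).of_le fun f _ => ?_⟩
    have := Q_nonneg (u - v) f
    simp only [Pi.add_apply, Pi.sub_apply, Pi.smul_apply, smul_eq_mul, map_add, map_sub,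
      LinearMap.add_apply, LinearMap.sub_apply] at this ⊢
    linarith
  | single a c =>
    refine ⟨‖c‖ ^ 2, _, ((arch a.1 a.2 _ le_rfl).smul (sq_nonneg ‖c‖)).of_le fun f _ => ?_⟩
    simp only [Pi.sub_apply, Pi.smul_apply, smul_eq_mul, Q_apply, app_single,
      real_inner_self_eq_norm_sq, norm_mul, norm_one]
    linarith

/-- The key step: `-1` is not in the cone. -/
theorem not_dom (hI : InertStmt) (n : ℕ) (hn : 1 ≤ n) : ¬ Dom D n (-one m) := by
  intro hd
  classical
  have hfin : {a : Bs m | a.1.length < n}.Finite :=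
    ((List.finite_length_lt L n).prod (Set.finite_univ (α := Fin (m + 1)))).subset
      fun a ha => ⟨ha, trivial⟩
  let T : Type := {a : Bs m // a.1.length < n}
  have : Fintype T := hfin.fintype
  let N : LinearMap.BilinForm ℝ (F m) :=
    ∑ a : T, be (Finsupp.single a.1 1) (Finsupp.single a.1 1)
  have hN : ∀ f g, N f g = ∑ a : T, ⟪f a.1, g a.1⟫_ℝ := fun f g => by
    simp only [N, LinearMap.sum_apply, be_apply, app_single, one_mul]
  have hNs : Supp n N := fun f g => by
    rw [hN, hN]
    exact Finset.sum_congr rfl fun a _ => by simp only [cut, if_pos a.2]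
  have hN0 : ∀ f, 0 ≤ N f f := fun f => by
    rw [hN]
    exact Finset.sum_nonneg fun a _ => real_inner_self_nonneg
  have hd2 : Dom D n fun f => -N f f := by
    have : ∀ s : Finset T, Dom D n fun f => -∑ a ∈ s, ⟪f a.1, f a.1⟫_ℝ := by
      intro s
      induction s using Finset.induction_on with
      | empty => exact dom_nonneg _ fun f _ => by simp
      | insert a s ha ih =>
        refine ((ih.add hd).add (arch a.1.1 a.1.2 n a.2.le)).of_le fun f _ => ?_
        simp only [Finset.sum_insert ha, Pi.add_apply, Pi.sub_apply, Pi.neg_apply, Q_apply,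
          app_single, one_mul]
        linarith
    simpa only [hN] using this Finset.univ
  obtain ⟨H, P, θ, h1, h2, h3, h4, h5, h6, h7⟩ := hd2
  let V : Type := T → ℂ
  let ext : V →ₗ[ℝ] F m :=
    { toFun := fun v a => if h : a.1.length < n then v ⟨a, h⟩ else 0
      map_add' := fun v w => by
        funext a
        simp only [Pi.add_apply]
        split_ifs
        · rfl
        · simp
      map_smul' := fun c v => by
        funext a
        simp only [Pi.smul_apply, RingHom.id_apply]
        split_ifs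
        · rfl
        · simp }
  have hext : ∀ (v : V) (a : T), ext v a.1 = v a := fun v a => dif_pos a.2
  let res : F m →ₗ[ℝ] V := LinearMap.funLeft ℝ ℂ (Subtype.val : T → Bs m)
  have hcut : ∀ f, cut n (ext (res f)) = cut n f := fun f => by
    funext a
    simp only [cut]
    split_ifs with h
    · exact hext _ ⟨a, h⟩
    · rfl
  obtain ⟨N', hdim, hN'⟩ := hI V (H.comp ext ext) ((P + N).comp ext ext)
    (fun i => (θ i).comp ext ext) (fun a b => h4 _ _)
    (fun a b => by
      simp only [LinearMap.BilinForm.comp_apply, LinearMap.add_apply, h5 (ext a), hN,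
        real_inner_comm (ext a _)])
    (fun v hv => by
      simp only [LinearMap.BilinForm.comp_apply, LinearMap.add_apply]
      have : 0 < N (ext v) (ext v) := by
        rw [hN]
        obtain ⟨a, ha⟩ := Function.ne_iff.1 hv
        refine Finset.sum_pos' (fun a _ => real_inner_self_nonneg) ⟨a, Finset.mem_univ _, ?_⟩
        rw [hext]
        exact real_inner_self_pos.2 ha
      have := h6 (ext v)
      linarith)
  let Z0 : Type := (Fin (m + 1) → ℂ) × (Fin 3 → V) × (Fin 3 → V)
  let Λ : Z0 →ₗ[ℝ] F m :=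
    { toFun := fun y a => match a with
        | ([], j) => y.1 j
        | ((i, false) :: w, j) => ext (y.2.1 i) (w, j)
        | ((i, true) :: w, j) => ext (y.2.2 i) (w, j)
      map_add' := fun y y' => by
        funext a
        obtain ⟨_ | ⟨⟨i, _ | _⟩, w⟩, j⟩ := a
        · rfl
        · exact congrFun (map_add ext (y.2.1 i) (y'.2.1 i)) (w, j)
        · exact congrFun (map_add ext (y.2.2 i) (y'.2.2 i)) (w, j)
      map_smul' := fun c y => by
        funext a
        obtain ⟨_ | ⟨⟨i, _ | _⟩, w⟩, j⟩ := a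
        · rfl
        · exact congrFun (map_smul ext c (y.2.1 i)) (w, j)
        · exact congrFun (map_smul ext c (y.2.2 i)) (w, j) }
  let Ψ : Z0 →ₗ[ℝ] V × (Fin 3 → V) × (Fin 3 → V) :=
    (res ∘ₗ Λ).prod (LinearMap.snd ℝ _ _)
  have hΨ : Function.Injective Ψ := by
    rw [← LinearMap.ker_eq_bot, LinearMap.ker_eq_bot']
    intro y hy
    have e1 : res (Λ y) = 0 := congrArg Prod.fst hy
    have e2 : y.2 = 0 := congrArg Prod.snd hy
    refine Prod.ext ?_ e2
    funext j
    exact congrFun e1 ⟨([], j), hn⟩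
  let Rm : Z0 →ₗ[ℝ] (Fin m → ℂ) := (LinearMap.pi fun k => appL (row (D k))) ∘ₗ Λ
  have hZ : 2 + 6 * finrank ℝ V ≤ finrank ℝ (LinearMap.ker Rm) := by
    have e1 := LinearMap.finrank_range_add_finrank_ker Rm
    have e2 := Submodule.finrank_le (LinearMap.range Rm)
    have e3 : finrank ℝ Z0 = (m + 1) * 2 + (3 * finrank ℝ V + 3 * finrank ℝ V) := by
      simp only [Z0, finrank_prod, Module.finrank_pi_fintype ℝ (ι := Fin _), Finset.sum_const,
        Finset.card_univ, Fintype.card_fin, smul_eq_mul, Complex.finrank_real_complex]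
    have e4 : finrank ℝ (Fin m → ℂ) = m * 2 := by
      simp only [Module.finrank_pi_fintype ℝ (ι := Fin _), Finset.sum_const,
        Finset.card_univ, Fintype.card_fin, smul_eq_mul, Complex.finrank_real_complex]
    omega
  have hY : finrank ℝ ((LinearMap.ker Rm).map Ψ) = finrank ℝ (LinearMap.ker Rm) :=
    (Submodule.equivMapOfInjective Ψ hΨ _).finrank_eq.symm
  have hnd : ¬ Disjoint ((LinearMap.ker Rm).map Ψ) N' := by
    intro hdis
    have e1 := Submodule.finrank_add_finrank_le_of_disjoint hdis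
    have e3 : finrank ℝ (V × (Fin 3 → V) × (Fin 3 → V)) =
        finrank ℝ V + (3 * finrank ℝ V + 3 * finrank ℝ V) := by
      simp only [finrank_prod, Module.finrank_pi_fintype ℝ (ι := Fin _), Finset.sum_const,
        Finset.card_univ, Fintype.card_fin, smul_eq_mul]
    omega
  rw [Submodule.disjoint_def] at hnd
  push Not at hnd
  obtain ⟨z, ⟨y, hy, rfl⟩, hz, hz0⟩ := hnd
  have hker : Ker D (Λ y) := fun k => congrFun (LinearMap.mem_ker.1 hy) k
  have a1 := h7 _ hker
  obtain ⟨a2, a3⟩ := hN' _ hz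
  have hl : ∀ {K : LinearMap.BilinForm ℝ (F m)}, Supp n K → ∀ g,
      K (ext (res (Λ y))) g = K (Λ y) g ∧ K g (ext (res (Λ y))) = K g (Λ y) := by
    intro K hK g
    rw [hK _ g, hK (Λ y) g, hK g (ext _), hK g (Λ y), hcut]
    exact ⟨rfl, rfl⟩
  have a4 : Phi (H.comp ext ext) ((P + N).comp ext ext) (fun i => (θ i).comp ext ext)
      (Ψ y).1 (Ψ y).2.1 (Ψ y).2.2 ≤ -(1 / 2) * N (Λ y) (Λ y) := by
    have b1 : ∀ i, sg (i, false) (Λ y) = ext (y.2.1 i) := fun i => rfl
    have b2 : ∀ i, sg (i, true) (Λ y) = ext (y.2.2 i) := fun i => rfl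
    have b3 : (Ψ y).1 = res (Λ y) := rfl
    have b4 : (Ψ y).2 = y.2 := rfl
    simp only [Ph, Phi, b1, b2, b3, b4, LinearMap.BilinForm.comp_apply, LinearMap.add_apply,
      (hl h1 _).1, (hl h1 _).2, (hl h2 _).1, (hl h2 _).2, (hl hNs _).1, (hl hNs _).2,
      fun i g => (hl (h3 i) g).1, fun i g => (hl (h3 i) g).2, Fin.sum_univ_three] at a1 ⊢
    have := hN0 (ext (y.2.2 0))
    have := hN0 (ext (y.2.2 1))
    have := hN0 (ext (y.2.2 2))
    linarith
  have a5 : N (Λ y) (Λ y) = 0 := le_antisymm (by linarith) (hN0 _)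
  have a6 : (Ψ y).1 = 0 := by
    funext a
    rw [hN, Finset.sum_eq_zero_iff_of_nonneg (fun a _ => real_inner_self_nonneg)] at a5
    exact inner_self_eq_zero.1 (a5 a (Finset.mem_univ _))
  have := a3 a6 hz0
  linarith

end FormP

open FormP in
theorem form (hI : InertStmt) : FormStmt := by
  intro m D
  let ev : M m ⊗[ℝ] M m →ₗ[ℝ] (F m → ℝ) := TensorProduct.lift Q
  have hev : ∀ u v : M m, ev (u ⊗ₜ v) = Q u v := fun u v => rfl
  let s : PointedCone ℝ (M m ⊗[ℝ] M m) :=
    { carrier := {t | ∃ n, Dom D n (ev t)}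
      zero_mem' := ⟨0, dom_nonneg _ fun f _ => by simp⟩
      add_mem' := by
        rintro t t' ⟨n, h⟩ ⟨n', h'⟩
        refine ⟨max n n', ?_⟩
        rw [map_add]
        exact (h.mono (le_max_left _ _)).add (h'.mono (le_max_right _ _))
      smul_mem' := by
        rintro c t ⟨n, h⟩
        refine ⟨n, ?_⟩
        have : ev (c • t) = (c : ℝ) • ev t := map_smul ev (c : ℝ) t
        rw [this]
        exact h.smul c.2 }
  let o : M m ⊗[ℝ] M m := ∑ j, (gen j : M m) ⊗ₜ[ℝ] (gen j : M m)
  have ho : ev o = one m := by simp only [o, one, map_sum, hev]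
  have ho0 : o ≠ 0 := by
    intro h
    refine not_dom (D := D) hI 1 le_rfl (dom_nonneg _ fun f _ => ?_)
    rw [← ho, h]
    simp
  obtain ⟨g, hg1, hg⟩ := riesz_extension s (LinearPMap.mkSpanSingleton o (1 : ℝ) ho0)
    (by
      rintro ⟨x, hx⟩ ⟨n, hn⟩
      obtain ⟨c, rfl⟩ := Submodule.mem_span_singleton.1 hx
      rw [LinearPMap.mkSpanSingleton'_apply]
      simp only [RingHom.id_apply, smul_eq_mul, mul_one]
      by_contra hc
      push Not at hc
      refine not_dom (D := D) hI (max n 1) (le_max_right _ _) ?_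
      have h1 := (hn.mono (le_max_left n 1)).smul (c := -c⁻¹) (by
        have := inv_lt_zero.2 hc
        linarith)
      simp only [map_smul, ho, smul_smul] at h1
      rw [neg_mul, inv_mul_cancel₀ hc.ne, neg_one_smul] at h1
      exact h1)
    (by
      intro y
      suffices h : ∃ c : ℝ, c • o + y ∈ s by
        obtain ⟨c, hc⟩ := h
        exact ⟨⟨c • o, Submodule.mem_span_singleton.2 ⟨c, rfl⟩⟩, hc⟩
      induction y using TensorProduct.induction_on with
      | zero => exact ⟨0, by simp⟩
      | tmul u v =>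
        obtain ⟨c, n, h⟩ := arch2 (D := D) u
        obtain ⟨c', n', h'⟩ := arch2 (D := D) v
        refine ⟨(c + c') / 2, max n n', (((h.mono (le_max_left _ _)).add
          (h'.mono (le_max_right _ _))).smul (c := 1 / 2) (by norm_num)).of_le fun f _ => ?_⟩
        have := Q_nonneg (u + v) f
        have e : Q v u f = Q u v f := by rw [Q_comm]
        simp only [map_add, map_smul, ho, hev, Pi.add_apply, Pi.sub_apply,
          Pi.smul_apply, smul_eq_mul, LinearMap.add_apply] at this ⊢
        linarith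
      | add x y hx hy =>
        obtain ⟨c, h⟩ := hx
        obtain ⟨c', h'⟩ := hy
        refine ⟨c + c', ?_⟩
        have := s.add_mem h h'
        convert this using 1
        rw [add_smul]
        abel)
  have hgo : g o = 1 := by
    have := hg1 ⟨o, Submodule.mem_span_singleton_self o⟩
    rw [LinearPMap.mkSpanSingleton_apply] at this
    exact this
  let b : LinearMap.BilinForm ℝ (M m) := (TensorProduct.mk ℝ (M m) (M m)).compr₂ g
  have hb : ∀ u v, b u v = g (u ⊗ₜ v) := fun u v => rfl
  have hz : ∀ t t', ev t = ev t' → g t = g t' := by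
    intro t t' h
    have a1 := hg (t - t') ⟨0, dom_nonneg _ fun f _ => by simp [h]⟩
    have a2 := hg (t' - t) ⟨0, dom_nonneg _ fun f _ => by simp [h]⟩
    rw [map_sub] at a1 a2
    linarith
  have hnn : ∀ u, 0 ≤ b u u := fun u => hg _ ⟨0, dom_nonneg _ fun f _ => Q_nonneg u f⟩
  refine ⟨b, ⟨fun u v => hz _ _ ?_, hnn, fun u v => hz _ _ ?_, fun i u v => ?_, fun u => ?_,
    fun u => ?_, ?_⟩, fun k => ?_⟩
  · exact Q_comm u v
  · exact Q_rot u v
  · have key : ∀ u, b u (sh (i, true) v) ≤ b (sh (i, false) u) v := by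
      intro u
      have := hg (sh (i, false) u ⊗ₜ v - u ⊗ₜ sh (i, true) v) (by
        obtain ⟨n, h⟩ := dom_move (D := D) i u v
        exact ⟨n, by rwa [map_sub]⟩)
      rw [map_sub] at this
      rw [hb, hb]
      linarith
    have k1 := key u
    have k2 := key (-u)
    simp only [map_neg, LinearMap.neg_apply] at k2
    linarith
  · obtain ⟨n, hn⟩ := exists_short u
    have key : ∀ c : ℝ, 0 ≤ c * ((∑ i, b (sh (i, false) u) (sh (i, false) u)) - b u u) := by
      intro c
      have := hg (c • ((∑ i, sh (i, false) u ⊗ₜ sh (i, false) u) - u ⊗ₜ u))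
        ⟨n, by simpa only [map_smul, map_sub, map_sum, hev] using dom_eq hn c⟩
      simpa only [map_smul, map_sub, map_sum, hb, smul_eq_mul] using this
    have k1 := key 1
    have k2 := key (-1)
    linarith
  · obtain ⟨n, hn⟩ := exists_short u
    have := hg ((1 / 2 : ℝ) • (u ⊗ₜ u) - ∑ i, sh (i, true) u ⊗ₜ sh (i, true) u)
      ⟨n, by simpa only [map_smul, map_sub, map_sum, hev] using dom_le hn⟩
    simp only [map_smul, map_sub, map_sum, smul_eq_mul, ← hb] at this
    linarith
  · simpa only [o, map_sum, hb] using hgo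
  · refine le_antisymm ?_ (hnn _)
    have := hg ((-1 : ℝ) • (row (D k) ⊗ₜ[ℝ] row (D k))) ⟨0, dom_nonneg _ fun f hf => by
      rw [map_smul, hev, Pi.smul_apply, Q_apply, hf k]
      simp⟩
    rw [map_smul, ← hb, smul_eq_mul] at this
    linarith

end Crest.Agent.QT
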