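import Crest.Agent.QT.Defs

/-! U3: from good forms to representations with a kernel vector. -/

set_option autoImplicit false

namespace Crest.Agent.QT

open scoped BigOperators InnerProductSpace
open UniformSpace

theorem gns_core {W : Type} [SeminormedAddCommGroup W] [InnerProductSpace ℂ W]
    (s : L → W →ₗ[ℂ] W)
    (hadj : ∀ i u v, ⟪s (i, true) u, v⟫_ℂ = ⟪u, s (i, false) v⟫_ℂ)
    (heq : ∀ u, ∑ i, ‖s (i, false) u‖ ^ 2 = ‖u‖ ^ 2)
    (hle : ∀ u, ∑ i, ‖s (i, true) u‖ ^ 2 ≤ (1 / 2) * ‖u‖ ^ 2) :
    ∃ x : Fin 3 → Completion W →L[ℂ] Completion W, Rel x ∧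
      ∀ l (u : W), letter x l (u : Completion W) = (s l u : Completion W) := by
  have hb : ∀ l u, ‖s l u‖ ≤ 1 * ‖u‖ := by
    rintro ⟨i, _ | _⟩ u
    · have := Finset.single_le_sum (f := fun i => ‖s (i, false) u‖ ^ 2)
        (fun j _ => sq_nonneg _) (Finset.mem_univ i)
      rw [heq] at this
      rw [one_mul]
      exact (sq_le_sq₀ (norm_nonneg _) (norm_nonneg _)).1 this
    · have := Finset.single_le_sum (f := fun i => ‖s (i, true) u‖ ^ 2)
        (fun j _ => sq_nonneg _) (Finset.mem_univ i)
      have h2 := hle u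
      rw [one_mul]
      refine (sq_le_sq₀ (norm_nonneg _) (norm_nonneg _)).1 ?_
      nlinarith [sq_nonneg ‖u‖]
  let X : L → Completion W →L[ℂ] Completion W := fun l =>
    ((s l).mkContinuous 1 (hb l)).completion
  have hX : ∀ l (u : W), X l (u : Completion W) = (s l u : Completion W) := fun l u => by
    simp [X]
  have hstar : ∀ i, star (X (i, false)) = X (i, true) := by
    intro i
    rw [ContinuousLinearMap.star_eq_adjoint]
    symm
    rw [ContinuousLinearMap.eq_adjoint_iff]
    intro ξ η
    induction ξ, η using Completion.induction_on₂ with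
    | hp => exact isClosed_eq (by fun_prop) (by fun_prop)
    | ih u v => rw [hX, hX, Completion.inner_coe, Completion.inner_coe, hadj]
  have heq' : ∀ ξ, ∑ i, ‖X (i, false) ξ‖ ^ 2 = ‖ξ‖ ^ 2 := by
    intro ξ
    induction ξ using Completion.induction_on with
    | hp => exact isClosed_eq (by fun_prop) (by fun_prop)
    | ih u => simpa only [hX, Completion.norm_coe] using heq u
  have hle' : ∀ ξ, ∑ i, ‖X (i, true) ξ‖ ^ 2 ≤ (1 / 2) * ‖ξ‖ ^ 2 := by
    intro ξ
    induction ξ using Completion.induction_on with
    | hp => exact isClosed_le (by fun_prop) (by fun_prop)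
    | ih u => simpa only [hX, Completion.norm_coe] using hle u
  refine ⟨fun i => X (i, false), ⟨?_, ?_⟩, ?_⟩
  · apply ContinuousLinearMap.coe_injective
    rw [← ext_inner_map]
    intro ξ
    simp only [ContinuousLinearMap.coe_coe, sum_apply,
      mul_apply_eq_comp, sum_inner, ContinuousLinearMap.star_eq_adjoint,
      ContinuousLinearMap.adjoint_inner_left, one_apply_eq_self,
      inner_self_eq_norm_sq_to_K]
    have := congrArg (fun r : ℝ => (r : ℂ)) (heq' ξ)
    simpa using this
  · refine ContinuousLinearMap.opNorm_le_bound _ (by norm_num) fun ξ => ?_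
    set η := (∑ i, X (i, false) * star (X (i, false))) ξ with hη
    have h1 : ⟪η, η⟫_ℂ = ∑ i, ⟪X (i, true) η, X (i, true) ξ⟫_ℂ := by
      conv_lhs => rw [hη]
      rw [← hη]
      nth_rewrite 2 [hη]
      simp only [sum_apply, mul_apply_eq_comp, inner_sum]
      refine Finset.sum_congr rfl fun i _ => ?_
      rw [← hstar, ContinuousLinearMap.star_eq_adjoint, ContinuousLinearMap.adjoint_inner_left]
    have h2 : ‖η‖ ^ 2 ≤ ∑ i, ‖X (i, true) η‖ * ‖X (i, true) ξ‖ := by
      have : ‖η‖ ^ 2 = ‖⟪η, η⟫_ℂ‖ := by
        rw [inner_self_eq_norm_sq_to_K]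
        simp
      rw [this, h1]
      exact (norm_sum_le _ _).trans (Finset.sum_le_sum fun i _ => norm_inner_le_norm _ _)
    have h3 := hle' ξ
    have h4 := hle' η
    simp only [Fin.sum_univ_three] at h2 h3 h4
    refine (sq_le_sq₀ (norm_nonneg _) (by positivity)).1 ?_
    nlinarith [sq_nonneg (‖X (0, true) ξ‖ / 2 - ‖X (0, true) η‖),
      sq_nonneg (‖X (1, true) ξ‖ / 2 - ‖X (1, true) η‖),
      sq_nonneg (‖X (2, true) ξ‖ / 2 - ‖X (2, true) η‖)]
  · rintro ⟨i, _ | _⟩ u
    · exact hX _ u
    · simp only [letter, cond_true, hstar]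
      exact hX _ u

/-- Type synonym carrying the form. -/
@[nolint unusedArguments]
def Pre {m : ℕ} {b : LinearMap.BilinForm ℝ (M m)} (_hb : Good b) : Type := M m

section

variable {m : ℕ} {b : LinearMap.BilinForm ℝ (M m)} (hb : Good b)

noncomputable instance : AddCommGroup (Pre hb) := inferInstanceAs (AddCommGroup (M m))
noncomputable instance : Module ℂ (Pre hb) := inferInstanceAs (Module ℂ (M m))

noncomputable def toPre : M m ≃ₗ[ℂ] Pre hb := LinearEquiv.refl ℂ _

noncomputable def cin (b : LinearMap.BilinForm ℝ (M m)) (u v : M m) : ℂ :=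
  ⟨b u v, -b u (Complex.I • v)⟩

include hb in
theorem Good.rot' (u v : M m) : b (Complex.I • u) v = -b u (Complex.I • v) := by
  rw [← hb.rot (Complex.I • u) v, smul_smul, Complex.I_mul_I, neg_one_smul, map_neg,
    LinearMap.neg_apply]

theorem smul_decomp (c : ℂ) (u : M m) : c • u = c.re • u + c.im • (Complex.I • u) := by
  conv_lhs => rw [← Complex.re_add_im c]
  rw [add_smul, mul_smul, Complex.coe_smul, Complex.coe_smul]

theorem cin_add (b : LinearMap.BilinForm ℝ (M m)) (u v w : M m) :
    cin b (u + v) w = cin b u w + cin b v w := by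
  apply Complex.ext
  · simp only [cin, map_add, LinearMap.add_apply, Complex.add_re]
  · simp only [cin, map_add, LinearMap.add_apply, Complex.add_im]
    ring

include hb in
theorem cin_smul (u v : M m) (c : ℂ) :
    cin b (c • u) v = (starRingEnd ℂ) c * cin b u v := by
  rw [smul_decomp]
  apply Complex.ext
  · simp only [cin, map_add, map_smul, LinearMap.add_apply, LinearMap.smul_apply, smul_eq_mul,
      Complex.mul_re, Complex.conj_re, Complex.conj_im, hb.rot']
    ring
  · simp only [cin, map_add, map_smul, LinearMap.add_apply, LinearMap.smul_apply, smul_eq_mul,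
      Complex.mul_im, Complex.conj_re, Complex.conj_im, hb.rot]
    ring

noncomputable abbrev core : PreInnerProductSpace.Core ℂ (Pre hb) where
  inner u v := cin b ((toPre hb).symm u) ((toPre hb).symm v)
  conj_inner_symm u v := by
    apply Complex.ext
    · simp only [cin, Complex.conj_re]
      exact hb.symm _ _
    · simp only [cin, Complex.conj_im, neg_neg]
      rw [hb.symm, hb.rot']
  re_inner_nonneg u := hb.nonneg _
  add_left u v w := by
    rw [map_add]
    exact cin_add _ _ _ _
  smul_left u v c := by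
    rw [map_smul]
    exact cin_smul hb _ _ _

noncomputable instance : SeminormedAddCommGroup (Pre hb) :=
  InnerProductSpace.Core.toSeminormedAddCommGroup (c := core hb)
noncomputable instance : InnerProductSpace ℂ (Pre hb) :=
  InnerProductSpace.ofCore (core hb)

theorem pre_inner (u v : M m) : ⟪toPre hb u, toPre hb v⟫_ℂ = cin b u v := rfl

theorem pre_norm (u : M m) : ‖toPre hb u‖ ^ 2 = b u u := by
  rw [@norm_sq_eq_re_inner ℂ, pre_inner]
  rfl

end

theorem primal (h : FormStmt) : PrimalStmt := by
  intro m D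
  obtain ⟨b, hb, hD⟩ := h m D
  let s : L → Pre hb →ₗ[ℂ] Pre hb := fun l =>
    (toPre hb).toLinearMap ∘ₗ sh l ∘ₗ (toPre hb).symm.toLinearMap
  have hs : ∀ l u, s l (toPre hb u) = toPre hb (sh l u) := fun l u => rfl
  obtain ⟨x, hx, hl⟩ := gns_core s
    (fun i u v => by
      obtain ⟨u, rfl⟩ := (toPre hb).surjective u
      obtain ⟨v, rfl⟩ := (toPre hb).surjective v
      rw [hs, hs, pre_inner, pre_inner]
      apply Complex.ext
      · simp only [cin]
        rw [hb.symm, ← hb.adj, hb.symm]
      · simp only [cin]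
        rw [hb.symm, ← hb.adj, hb.symm, map_smul])
    (fun u => by
      obtain ⟨u, rfl⟩ := (toPre hb).surjective u
      simpa only [hs, pre_norm] using hb.eq u)
    (fun u => by
      obtain ⟨u, rfl⟩ := (toPre hb).surjective u
      simpa only [hs, pre_norm] using hb.le u)
  let ι : M m →ₗ[ℂ] Completion (Pre hb) :=
    (Completion.toComplL (𝕜 := ℂ) (E := Pre hb)).toLinearMap ∘ₗ (toPre hb).toLinearMap
  have hι : ∀ u, ι u = (toPre hb u : Completion (Pre hb)) := fun u => rfl
  have hn : ∀ u, ‖ι u‖ ^ 2 = b u u := fun u => by rw [hι, Completion.norm_coe, pre_norm]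
  have hw : ∀ w j, word x w (ι (gen j)) = ι (Finsupp.single (w, j) 1) := by
    intro w j
    induction w with
    | nil => rfl
    | cons l w ih =>
      have : word x (l :: w) = letter x l * word x w := by simp [word]
      rw [this, mul_apply_eq_comp, ih, hι, hl, hs, ← hι]
      simp [sh]
  refine ⟨Completion (Pre hb), inferInstance, inferInstance, inferInstance, x,
    fun j => ι (gen j), hx, fun h0 => ?_, fun k => ?_⟩
  · have := hb.norm
    simp only [← hn, fun j => congrFun h0 j] at this
    simp at this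
  · have h1 : ∑ j, ev x (D k j) (ι (gen j)) = ι (row (D k)) := by
      rw [row, map_sum]
      refine Finset.sum_congr rfl fun j _ => ?_
      rw [ev, Finsupp.mapDomain, map_finsuppSum, Finsupp.sum, Finsupp.sum,
        sum_apply]
      refine Finset.sum_congr rfl fun w _ => ?_
      rw [smul_apply, hw, ← map_smul]
      simp
    rw [h1]
    have := hn (row (D k))
    rw [hD k] at this
    simpa using this

end Crest.Agent.QT
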