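import Crest.Agent.QT.Defs

/-! U1: the inertia lemma. -/

set_option autoImplicit false

namespace Crest.Agent.QT

open scoped BigOperators InnerProductSpace
open Module

section

variable {V : Type} [AddCommGroup V] [Module ℝ V]

theorem quad_orth {ι : Type} [Fintype ι] (K : LinearMap.BilinForm ℝ V) (c : ι → V)
    (hc : ∀ i j, i ≠ j → K (c i) (c j) = 0) (a : ι → ℝ) :
    K (∑ i, a i • c i) (∑ i, a i • c i) = ∑ i, a i ^ 2 * K (c i) (c i) := by
  classical
  simp only [map_sum, map_smul, LinearMap.sum_apply, LinearMap.smul_apply, smul_eq_mul]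
  refine Finset.sum_congr rfl fun j _ => ?_
  rw [Finset.sum_eq_single j]
  · ring
  · intro i _ hij
    rw [hc i j hij, mul_zero]
  · simp

theorem split_sign [FiniteDimensional ℝ V] (K : LinearMap.BilinForm ℝ V)
    (hK : ∀ a b, K a b = K b a) :
    ∃ V₁ V₂ : Submodule ℝ V, finrank ℝ V₁ + finrank ℝ V₂ = finrank ℝ V ∧
      (∀ v ∈ V₁, v ≠ 0 → K v v < 0) ∧ (∀ v ∈ V₂, 0 ≤ K v v) := by
  classical
  obtain ⟨b, hb⟩ := LinearMap.BilinForm.exists_orthogonal_basis (B := K) ⟨fun x y => hK x y⟩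
  have hb' : ∀ i j, i ≠ j → K (b i) (b j) = 0 := fun i j h => hb h
  let p : Fin (finrank ℝ V) → Prop := fun i => K (b i) (b i) < 0
  refine ⟨Submodule.span ℝ (Set.range fun i : {i // p i} => b i),
    Submodule.span ℝ (Set.range fun i : {i // ¬ p i} => b i), ?_, ?_, ?_⟩
  · have l1 : LinearIndependent ℝ fun i : {i // p i} => b i :=
      b.linearIndependent.comp _ Subtype.val_injective
    have l2 : LinearIndependent ℝ fun i : {i // ¬ p i} => b i :=
      b.linearIndependent.comp _ Subtype.val_injective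
    rw [finrank_span_eq_card l1, finrank_span_eq_card l2, Fintype.card_subtype_compl]
    have := Fintype.card_subtype_le p
    simp only [Fintype.card_fin] at this ⊢
    omega
  · intro v hv hv0
    obtain ⟨a, rfl⟩ := (Submodule.mem_span_range_iff_exists_fun ℝ).1 hv
    rw [quad_orth K (fun i : {i // p i} => b i) (fun i j h => hb' _ _ (Subtype.val_injective.ne h))]
    have : ∃ i, a i ≠ 0 := by
      by_contra! h
      exact hv0 (by simp [h])
    obtain ⟨i, hi⟩ := this
    refine Finset.sum_neg' (fun j _ => mul_nonpos_of_nonneg_of_nonpos (sq_nonneg _) j.2.le)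
      ⟨i, Finset.mem_univ _, mul_neg_of_pos_of_neg (by positivity) i.2⟩
  · intro v hv
    obtain ⟨a, rfl⟩ := (Submodule.mem_span_range_iff_exists_fun ℝ).1 hv
    rw [quad_orth K (fun i : {i // ¬ p i} => b i)
      (fun i j h => hb' _ _ (Subtype.val_injective.ne h))]
    exact Finset.sum_nonneg fun j _ => mul_nonneg (sq_nonneg _) (not_lt.1 j.2)

theorem exists_orthonormal [FiniteDimensional ℝ V] (H : LinearMap.BilinForm ℝ V)
    (hH : ∀ a b, H a b = H b a) (W : Submodule ℝ V) (hW : ∀ v ∈ W, v ≠ 0 → 0 < H v v) :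
    ∃ b : Fin (finrank ℝ W) → V, (∀ k, b k ∈ W) ∧ (∀ k, H (b k) (b k) = 1) ∧
      ∀ k l, k ≠ l → H (b k) (b l) = 0 := by
  obtain ⟨c, hc⟩ := LinearMap.BilinForm.exists_orthogonal_basis (B := H.restrict W)
    ⟨fun x y => hH x y⟩
  have hc' : ∀ i j, i ≠ j → H (c i) (c j) = 0 := fun i j h => hc h
  have hpos : ∀ k, 0 < H (c k) (c k) := fun k =>
    hW _ (c k).2 (fun h => c.ne_zero k (Subtype.ext h))
  refine ⟨fun k => (Real.sqrt (H (c k) (c k)))⁻¹ • (c k : V), fun k => W.smul_mem _ (c k).2,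
    fun k => ?_, fun k l h => ?_⟩
  · simp only [map_smul, LinearMap.smul_apply, smul_eq_mul]
    have h1 := Real.mul_self_sqrt (hpos k).le
    have h2 : Real.sqrt (H (c k) (c k)) ≠ 0 := (Real.sqrt_pos.2 (hpos k)).ne'
    field_simp
    nlinarith
  · simp only [map_smul, LinearMap.smul_apply, smul_eq_mul, hc' k l h, mul_zero]

end

theorem trace_sub {E ι : Type} [NormedAddCommGroup E] [InnerProductSpace ℝ E]
    [FiniteDimensional ℝ E] [Fintype ι] (e : OrthonormalBasis ι ℝ E)
    (Ξ : LinearMap.BilinForm ℝ E) (hs : ∀ a b, Ξ a b = Ξ b a) (hp : ∀ a, 0 ≤ Ξ a a) :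
    ∃ N : Submodule ℝ E, (Fintype.card ι : ℝ) ≤ finrank ℝ N + 2 * ∑ a, Ξ (e a) (e a) ∧
      ∀ x ∈ N, x ≠ 0 → 2 * Ξ x x < ‖x‖ ^ 2 := by
  classical
  let T : E →ₗ[ℝ] E := ∑ a, (Ξ.flip (e a)).smulRight (e a)
  have hT : ∀ x y, ⟪T x, y⟫_ℝ = Ξ x y := by
    intro x y
    conv_rhs => rw [← e.sum_repr' y]
    simp only [T, LinearMap.sum_apply, LinearMap.smulRight_apply, LinearMap.BilinForm.flip_apply,
      sum_inner, real_inner_smul_left, map_sum, map_smul, smul_eq_mul]
    exact Finset.sum_congr rfl fun a _ => mul_comm _ _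
  have hsym : T.IsSymmetric := fun x y => by
    rw [hT, real_inner_comm, hT, hs]
  have hn : finrank ℝ E = Fintype.card ι := finrank_eq_card_basis e.toBasis
  let u := hsym.eigenvectorBasis hn
  have hu : ∀ i j, i ≠ j → Ξ (u i) (u j) = 0 := by
    intro i j h
    rw [← hT, hsym.apply_eigenvectorBasis hn i, real_inner_smul_left, u.orthonormal.2 h, mul_zero]
  have htr : ∑ i, Ξ (u i) (u i) = ∑ a, Ξ (e a) (e a) := by
    have h1 := LinearMap.trace_eq_sum_inner T u
    have h2 := LinearMap.trace_eq_sum_inner T e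
    simp only [real_inner_comm (T _), hT] at h1 h2
    simp only [← hT]
    simp only [hT]
    rw [← h1, ← h2]
  let p : Fin (Fintype.card ι) → Prop := fun i => 2 * Ξ (u i) (u i) < 1
  refine ⟨Submodule.span ℝ (Set.range fun i : {i // p i} => u i), ?_, ?_⟩
  · have l1 : LinearIndependent ℝ fun i : {i // p i} => u i :=
      u.orthonormal.linearIndependent.comp _ Subtype.val_injective
    rw [finrank_span_eq_card l1, ← htr, Fintype.card_subtype, Finset.mul_sum]
    have : ∀ i, (1 : ℝ) ≤ (if p i then 1 else 0) + 2 * Ξ (u i) (u i) := by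
      intro i
      split_ifs with h
      · have := hp (u i)
        linarith
      · simpa [p] using h
    have h2 := Finset.sum_le_sum fun i (_ : i ∈ Finset.univ) => this i
    rw [Finset.sum_add_distrib, Finset.sum_boole] at h2
    simpa using h2
  · intro x hx hx0
    obtain ⟨a, rfl⟩ := (Submodule.mem_span_range_iff_exists_fun ℝ).1 hx
    rw [quad_orth Ξ (fun i : {i // p i} => u i) (fun i j h => hu _ _ (Subtype.val_injective.ne h)),
      ← real_inner_self_eq_norm_sq]
    have h1 := quad_orth (innerₗ E) (fun i : {i // p i} => u i)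
      (fun i j h => u.orthonormal.2 (Subtype.val_injective.ne h)) a
    simp only [innerₗ_apply_apply] at h1
    rw [h1, Finset.mul_sum]
    have : ∃ i, a i ≠ 0 := by
      by_contra! h
      exact hx0 (by simp [h])
    obtain ⟨i, hi⟩ := this
    have hone : ∀ j, ⟪u j, u j⟫_ℝ = 1 := fun j => by
      rw [real_inner_self_eq_norm_sq, u.orthonormal.1 j, one_pow]
    refine Finset.sum_lt_sum (fun j _ => ?_) ⟨i, Finset.mem_univ _, ?_⟩
    · have := j.2
      rw [hone]
      simp only [p] at this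
      nlinarith [sq_nonneg (a j)]
    · have := i.2
      rw [hone]
      simp only [p] at this
      have : 0 < a i ^ 2 := by positivity
      nlinarith

theorem inert : InertStmt := by
  intro V _ _ _ H P θ hH hP hPpos
  classical
  have hP0 : ∀ v, 0 ≤ P v v := fun v => by
    by_cases h : v = 0
    · simp [h]
    · exact (hPpos v h).le
  have hnd : P.Nondegenerate := by
    refine ⟨fun x hx => ?_, fun x hx => ?_⟩ <;>
    · by_contra h
      exact (hPpos x h).ne' (hx x)
  let S : Fin 3 → V →ₗ[ℝ] V := fun i => (P.toDual hnd).symm.toLinearMap ∘ₗ θ i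
  have hS : ∀ i a b, P (S i a) b = θ i a b := fun i a b =>
    LinearMap.BilinForm.apply_toDual_symm_apply (hB := hnd) (θ i a) b
  let ω : LinearMap.BilinForm ℝ V := (1 / 4 : ℝ) • ∑ i, P.comp (S i) (S i)
  have hω : ∀ a b, ω a b = (1 / 4 : ℝ) * ∑ i, P (S i a) (S i b) := fun a b => by
    simp [ω, LinearMap.sum_apply]
  obtain ⟨V₁, V₂, hdim, h₁, h₂⟩ := split_sign (ω - H) (fun a b => by
    simp only [LinearMap.sub_apply, hω, hH a b, fun i => hP (S i a) (S i b)])
  have hω0 : ∀ a, 0 ≤ ω a a := fun a => by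
    rw [hω]
    exact mul_nonneg (by norm_num) (Finset.sum_nonneg fun i _ => hP0 _)
  simp only [LinearMap.sub_apply] at h₁ h₂
  have hb := exists_orthonormal H hH V₁ (fun v hv h0 => by
    have := h₁ v hv h0
    have := hω0 v
    linarith)
  generalize finrank ℝ V₁ = e₁ at hb hdim
  obtain ⟨b, hbW, hb1, hb0⟩ := hb
  let E := EuclideanSpace ℝ (Fin 3 × Fin e₁)
  let β : Fin 3 → E →ₗ[ℝ] V := fun i =>
    ∑ k, (EuclideanSpace.projₗ (𝕜 := ℝ) (i, k)).smulRight (b k)
  have hβ : ∀ i (x : E), β i x = ∑ k, x (i, k) • b k := fun i x => by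
    simp only [β, LinearMap.sum_apply, LinearMap.smulRight_apply]
    rfl
  have hβH : ∀ x : E, ∑ i, H (β i x) (β i x) = ‖x‖ ^ 2 := by
    intro x
    rw [EuclideanSpace.real_norm_sq_eq, Fintype.sum_prod_type]
    refine Finset.sum_congr rfl fun i _ => ?_
    rw [hβ, quad_orth H b hb0]
    simp [hb1]
  let Sβ : E →ₗ[ℝ] V := ∑ i, S i ∘ₗ β i
  have hSβ : ∀ x, Sβ x = ∑ i, S i (β i x) := fun x => by simp [Sβ, LinearMap.sum_apply]
  let Ξ : LinearMap.BilinForm ℝ E := (1 / 4 : ℝ) • P.comp Sβ Sβ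
  have hΞ : ∀ x y, Ξ x y = (1 / 4 : ℝ) * P (Sβ x) (Sβ y) := fun x y => by simp [Ξ]
  obtain ⟨N₁, hN, hN₁⟩ := trace_sub (EuclideanSpace.basisFun (Fin 3 × Fin e₁) ℝ) Ξ
    (fun x y => by rw [hΞ, hΞ, hP]) (fun x => by rw [hΞ]; exact mul_nonneg (by norm_num) (hP0 _))
  have htr : ∑ a, Ξ (EuclideanSpace.basisFun (Fin 3 × Fin e₁) ℝ a)
      (EuclideanSpace.basisFun (Fin 3 × Fin e₁) ℝ a) ≤ e₁ := by
    have h1 : ∀ i k, Sβ (EuclideanSpace.basisFun (Fin 3 × Fin e₁) ℝ (i, k)) = S i (b k) := by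
      intro i k
      rw [hSβ, Finset.sum_eq_single i]
      · rw [hβ, Finset.sum_eq_single k]
        · simp
        · intro l _ hl
          simp [hl]
        · simp
      · intro j _ hj
        rw [hβ]
        simp [hj]
      · simp
    rw [Fintype.sum_prod_type, Finset.sum_comm]
    simp only [hΞ, h1]
    have h2 : ∀ k, ∑ i, (1 / 4 : ℝ) * P (S i (b k)) (S i (b k)) ≤ 1 := by
      intro k
      rw [← Finset.mul_sum, ← hω]
      have hk : b k ≠ 0 := fun h => by simpa [h] using hb1 k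
      have := h₁ _ (hbW k) hk
      rw [hb1] at this
      linarith
    calc _ ≤ ∑ _k : Fin e₁, (1 : ℝ) := Finset.sum_le_sum fun k _ => h2 k
      _ = e₁ := by simp
  have hN' : e₁ ≤ finrank ℝ N₁ := by
    simp only [Fintype.card_prod, Fintype.card_fin, Nat.cast_mul, Nat.cast_ofNat] at hN
    have : (e₁ : ℝ) ≤ finrank ℝ N₁ := by linarith
    exact_mod_cast this
  let Γ : (V₂ × N₁) →ₗ[ℝ] V × (Fin 3 → V) × (Fin 3 → V) :=
    (V₂.subtype ∘ₗ LinearMap.fst ℝ V₂ N₁).prod
      ((LinearMap.pi fun i => β i ∘ₗ N₁.subtype ∘ₗ LinearMap.snd ℝ V₂ N₁).prod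
        (LinearMap.pi fun i => (-(1 / 2 : ℝ)) • (S i ∘ₗ V₂.subtype ∘ₗ LinearMap.fst ℝ V₂ N₁)))
  have hΓ : ∀ y : V₂ × N₁, Γ y =
      ((y.1 : V), fun i => β i (y.2 : E), fun i => (-(1 / 2 : ℝ)) • S i (y.1 : V)) := fun y => rfl
  have hinj : Function.Injective Γ := by
    rw [← LinearMap.ker_eq_bot, LinearMap.ker_eq_bot']
    intro y hy
    rw [hΓ] at hy
    simp only [Prod.mk_eq_zero] at hy
    obtain ⟨hy1, hy2, -⟩ := hy
    have h3 : ‖(y.2 : E)‖ ^ 2 = 0 := by
      rw [← hβH]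
      refine Finset.sum_eq_zero fun i _ => ?_
      rw [congrFun hy2 i]
      simp
    have h4 : (y.2 : E) = 0 := by simpa using h3
    exact Prod.ext (Subtype.ext hy1) (Subtype.ext h4)
  refine ⟨LinearMap.range Γ, ?_, ?_⟩
  · rw [LinearMap.finrank_range_of_inj hinj, finrank_prod]
    omega
  · rintro z ⟨⟨v, x⟩, rfl⟩
    rw [hΓ]
    have key : (ω v v - H v v) + (‖(x : E)‖ ^ 2 - 2 * Ξ x x) ≤
        Phi H P θ (v : V) (fun i => β i (x : E)) (fun i => (-(1 / 2 : ℝ)) • S i (v : V)) := by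
      have e1 : ∑ i, θ i (β i (x : E)) (v : V) = P (Sβ x) v := by
        rw [hSβ]
        simp only [map_sum, LinearMap.sum_apply, hS]
      have e2 := hP0 ((v : V) + Sβ x)
      simp only [map_add, LinearMap.add_apply] at e2
      have e3 := hP (v : V) (Sβ x)
      simp only [Phi, hβH, Finset.sum_sub_distrib, e1, map_smul, LinearMap.smul_apply, smul_eq_mul,
        ← hS _ (v : V), hω, hΞ, ← Finset.mul_sum]
      linarith
    have k1 := h₂ v v.2
    have k2 : 0 ≤ ‖(x : E)‖ ^ 2 - 2 * Ξ x x := by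
      by_cases h : (x : E) = 0
      · simp [h]
      · have := hN₁ x x.2 h
        linarith
    refine ⟨by linarith, fun hv hz => ?_⟩
    have hv' : (v : V) = 0 := hv
    have hx : (x : E) ≠ 0 := by
      intro h
      apply hz
      simp [hv', h, Prod.ext_iff, funext_iff]
    have := hN₁ x x.2 hx
    linarith

end Crest.Agent.QT
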