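import Mathlib

/-! Valuations on cozero sets and their Choquet integrals. -/

set_option autoImplicit false
set_option linter.unusedSectionVars false

open MeasureTheory Set

namespace Crest.Agent.QT

variable {X : Type*} [TopologicalSpace X] [CompactSpace X]

/-- a monotone modular function of the set `{f > 0}` -/
structure IsVal (F : C(X, ℝ) → ℝ) : Prop where
  zero : F 0 = 0
  mono : ∀ f g : C(X, ℝ), (∀ x, 0 < f x → 0 < g x) → F f ≤ F g
  modu : ∀ f g : C(X, ℝ), F (f ⊔ g) + F (f ⊓ g) = F f + F g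

/-- `f - t` -/
noncomputable def shf (f : C(X, ℝ)) (t : ℝ) : C(X, ℝ) := f - algebraMap ℝ C(X, ℝ) t

lemma shf_apply (f : C(X, ℝ)) (t : ℝ) (x : X) : shf f t x = f x - t := by simp [shf]

/-- Choquet integral -/
noncomputable def chq (F : C(X, ℝ) → ℝ) (f : C(X, ℝ)) : ℝ := ∫ t in Ioi (0 : ℝ), F (shf f t)

namespace IsVal
variable {F : C(X, ℝ) → ℝ} (h : IsVal F)
include h

lemma congr {f g : C(X, ℝ)} (H : ∀ x, 0 < f x ↔ 0 < g x) : F f = F g :=
  le_antisymm (h.mono _ _ fun x => (H x).1) (h.mono _ _ fun x => (H x).2)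

lemma nonneg (f : C(X, ℝ)) : 0 ≤ F f := h.zero ▸ h.mono 0 f (by simp)

lemma eq_zero {f : C(X, ℝ)} (H : ∀ x, f x ≤ 0) : F f = 0 :=
  le_antisymm (h.zero ▸ h.mono f 0 fun x hx => absurd hx (not_lt.2 (H x))) (h.nonneg f)

lemma anti (p u : C(X, ℝ)) : Antitone fun t => F (shf p t ⊓ u) := fun s t hst =>
  h.mono _ _ fun x => by
    simp only [ContinuousMap.inf_apply, shf_apply, lt_min_iff]
    exact fun hx => ⟨by linarith [hx.1], hx.2⟩

lemma anti' (p : C(X, ℝ)) : Antitone fun t => F (shf p t) := fun s t hst =>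
  h.mono _ _ fun x => by
    simp only [shf_apply]
    exact fun hx => by linarith

lemma chq_eq {f : C(X, ℝ)} {R : ℝ} (hR : 0 ≤ R) (hf : ∀ x, f x ≤ R) :
    chq F f = ∫ t in (0 : ℝ)..R, F (shf f t) := by
  rw [intervalIntegral.integral_of_le hR, chq]
  refine setIntegral_eq_of_subset_of_forall_sdiff_eq_zero measurableSet_Ioi Ioc_subset_Ioi_self ?_
  intro t ht
  refine h.eq_zero fun x => ?_
  have : R < t := by
    by_contra hc
    exact ht.2 ⟨ht.1, not_lt.1 hc⟩
  rw [shf_apply]; linarith [hf x]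

lemma shift (p u : C(X, ℝ)) {δ R : ℝ} (hp : ∀ x, 0 ≤ p x) (hδ : 0 ≤ δ) (hR : ∀ x, p x + δ ≤ R)
    (hR' : δ ≤ R) :
    ∫ t in (0 : ℝ)..R, F (shf p t ⊔ shf p (t - δ) ⊓ u) =
      (∫ t in (0 : ℝ)..R, F (shf p t)) + δ * F u := by
  have e : ∀ t, F (shf p t ⊔ shf p (t - δ) ⊓ u) =
      F (shf p t) + (F (shf p (t - δ) ⊓ u) - F (shf p t ⊓ u)) := by
    intro t
    have e1 := h.modu (shf p t) (shf p (t - δ) ⊓ u)
    have e2 : F (shf p t ⊓ (shf p (t - δ) ⊓ u)) = F (shf p t ⊓ u) := h.congr fun x => by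
      simp only [ContinuousMap.inf_apply, shf_apply, lt_min_iff]
      exact ⟨fun hx => ⟨hx.1, hx.2.2⟩, fun hx => ⟨hx.1, by linarith [hx.1], hx.2⟩⟩
    linarith
  have i1 := fun a b => (h.anti p u).intervalIntegrable (μ := volume) (a := a) (b := b)
  have i2 : IntervalIntegrable (fun t => F (shf p (t - δ) ⊓ u)) volume 0 R :=
    Antitone.intervalIntegrable fun s t hst => h.anti p u (by linarith)
  simp only [e]
  rw [intervalIntegral.integral_add (h.anti' p).intervalIntegrable (i2.sub (i1 _ _)),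
    intervalIntegral.integral_sub i2 (i1 _ _),
    intervalIntegral.integral_comp_sub_right (fun t => F (shf p t ⊓ u)),
    ← intervalIntegral.integral_add_adjacent_intervals (i1 (0 - δ) 0) (i1 0 (R - δ)),
    ← intervalIntegral.integral_add_adjacent_intervals (i1 0 (R - δ)) (i1 (R - δ) R)]
  have e3 : ∫ t in (R - δ)..R, F (shf p t ⊓ u) = 0 := by
    rw [intervalIntegral.integral_congr (g := fun _ => 0)]
    · simp
    · intro t ht
      rw [uIcc_of_le (by linarith)] at ht
      refine h.eq_zero fun x => ?_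
      simp only [ContinuousMap.inf_apply, shf_apply]
      exact (min_le_left _ _).trans (by linarith [ht.1, hR x])
  have e4 : ∫ t in (0 - δ)..0, F (shf p t ⊓ u) = δ * F u := by
    have : ∀ t ∈ Ioo (0 - δ) 0, F (shf p t ⊓ u) = F u := fun t ht => h.congr fun x => by
      simp only [ContinuousMap.inf_apply, shf_apply, lt_min_iff]
      exact ⟨fun hx => hx.2, fun hx => ⟨by linarith [hp x, ht.2], hx⟩⟩
    rw [intervalIntegral.integral_of_le (by linarith), integral_Ioc_eq_integral_Ioo,
      setIntegral_congr_fun measurableSet_Ioo this]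
    simp [hδ]
  rw [e3, e4]; ring

lemma step (p k u v : C(X, ℝ)) {δ : ℝ} (hp : ∀ x, 0 ≤ p x) (hδ : 0 ≤ δ) (k0 : ∀ x, 0 ≤ k x)
    (k1 : ∀ x, k x ≤ δ) (hu : ∀ x, 0 < k x → 0 < u x) (hv : ∀ x, 0 < v x → δ ≤ k x) :
    chq F p + δ * F v ≤ chq F (p + k) ∧ chq F (p + k) ≤ chq F p + δ * F u := by
  have hn : ∀ x, p x ≤ ‖p‖ := fun x => (le_abs_self _).trans (p.norm_coe_le_norm x)
  have hR : 0 ≤ ‖p‖ + δ := by positivity
  have i : ∀ w : C(X, ℝ), IntervalIntegrable (fun t => F (shf p t ⊔ shf p (t - δ) ⊓ w)) volume 0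
      (‖p‖ + δ) := fun w => Antitone.intervalIntegrable fun s t hst => h.mono _ _ fun x => by
    simp only [ContinuousMap.inf_apply, ContinuousMap.sup_apply, shf_apply, lt_min_iff, lt_max_iff]
    exact fun hx => hx.imp (fun a => by linarith) fun a => ⟨by linarith [a.1], a.2⟩
  rw [h.chq_eq hR (f := p) fun x => by linarith [hn x],
    h.chq_eq hR (f := p + k) fun x => by rw [ContinuousMap.add_apply]; linarith [hn x, k1 x],
    ← h.shift p u hp hδ (fun x => by linarith [hn x]) (by linarith [norm_nonneg p]),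
    ← h.shift p v hp hδ (fun x => by linarith [hn x]) (by linarith [norm_nonneg p])]
  constructor
  · refine intervalIntegral.integral_mono_on hR (i v) (h.anti' _).intervalIntegrable
      fun t _ => h.mono _ _ fun x => ?_
    simp only [ContinuousMap.inf_apply, ContinuousMap.sup_apply, shf_apply, lt_min_iff, lt_max_iff,
      ContinuousMap.add_apply]
    rintro (a | a)
    · linarith [k0 x]
    · linarith [hv x a.2, a.1]
  · refine intervalIntegral.integral_mono_on hR (h.anti' _).intervalIntegrable (i u)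
      fun t _ => h.mono _ _ fun x => ?_
    simp only [ContinuousMap.inf_apply, ContinuousMap.sup_apply, shf_apply, lt_min_iff, lt_max_iff,
      ContinuousMap.add_apply]
    intro a
    rcases (k0 x).eq_or_lt with b | b
    · left; linarith
    · right; exact ⟨by linarith [k1 x], hu x b⟩

lemma chq_zero : chq F 0 = 0 := by
  rw [h.chq_eq le_rfl (by simp)]; simp

lemma chq_add (f g : C(X, ℝ)) (hf : ∀ x, 0 ≤ f x) (hg : ∀ x, 0 ≤ g x) :
    chq F (f + g) = chq F f + chq F g := by
  have key : ∀ δ : ℝ, 0 < δ → |chq F (f + g) - chq F f - chq F g| ≤ δ * F g := by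
    intro δ hδ
    let G : ℕ → C(X, ℝ) := fun k => g ⊓ algebraMap ℝ C(X, ℝ) (k * δ)
    have hG : ∀ k x, G k x = min (g x) (k * δ) := fun k x => by simp [G]
    have ind : ∀ k : ℕ, |chq F (f + G k) - chq F f - chq F (G k)| ≤
        δ * (F g - F (shf g (k * δ))) := by
      intro k
      induction k with
      | zero =>
        have : G 0 = 0 := by ext x; simp [hG, hg x]
        simp [this, h.chq_zero, shf]
      | succ k ih =>
        have hk : (0 : ℝ) ≤ k * δ := by positivity
        have G0 : ∀ x, 0 ≤ G k x := fun x => by rw [hG]; exact le_min (hg x) hk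
        have a0 : ∀ x, 0 ≤ (G (k + 1) - G k) x ∧ (G (k + 1) - G k) x ≤ δ ∧
            (0 < (G (k + 1) - G k) x → 0 < shf g (k * δ) x) ∧
            (0 < shf g ((k + 1 : ℕ) * δ) x → δ ≤ (G (k + 1) - G k) x) := by
          intro x
          simp only [ContinuousMap.sub_apply, hG, shf_apply, min_def]
          push_cast
          split_ifs <;> refine ⟨?_, ?_, fun _ => ?_, fun _ => ?_⟩ <;> linarith
        have s1 := h.step (f + G k) (G (k + 1) - G k) _ _
          (fun x => add_nonneg (hf x) (G0 x)) hδ.le (fun x => (a0 x).1) (fun x => (a0 x).2.1)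
          (fun x => (a0 x).2.2.1) (fun x => (a0 x).2.2.2)
        have s2 := h.step (G k) (G (k + 1) - G k) _ _ G0 hδ.le (fun x => (a0 x).1)
          (fun x => (a0 x).2.1) (fun x => (a0 x).2.2.1) (fun x => (a0 x).2.2.2)
        rw [add_assoc, add_sub_cancel] at s1
        rw [add_sub_cancel] at s2
        rw [abs_le] at ih ⊢
        constructor <;> linarith [s1.1, s1.2, s2.1, s2.2, ih.1, ih.2]
    obtain ⟨k, hk⟩ := exists_nat_ge (‖g‖ / δ)
    have : G k = g := by
      ext x
      rw [hG, min_eq_left]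
      exact ((le_abs_self _).trans (g.norm_coe_le_norm x)).trans ((div_le_iff₀ hδ).1 hk)
    have e := ind k
    rw [this] at e
    have := mul_nonneg hδ.le (h.nonneg (shf g (k * δ)))
    linarith
  have : |chq F (f + g) - chq F f - chq F g| ≤ 0 := by
    refine le_of_forall_pos_le_add fun ε hε => ?_
    have h0 := h.nonneg g
    refine (key (ε / (F g + 1)) (by positivity)).trans ?_
    rw [zero_add, div_mul_eq_mul_div, div_le_iff₀ (by positivity)]
    nlinarith
  linarith [abs_nonpos_iff.1 this]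

lemma chq_posPart (f : C(X, ℝ)) : chq F f⁺ = chq F f :=
  setIntegral_congr_fun measurableSet_Ioi fun t ht => h.congr fun x => by
    have : (0 : ℝ) < t := ht
    simp only [shf_apply, posPart_def, ContinuousMap.sup_apply, ContinuousMap.zero_apply, sub_pos,
      lt_max_iff]
    exact ⟨fun a => a.resolve_right (by linarith), Or.inl⟩

lemma chq_bound (f : C(X, ℝ)) : 0 ≤ chq F f ∧ chq F f ≤ F 1 * ‖f‖ := by
  refine ⟨setIntegral_nonneg measurableSet_Ioi fun _ _ => h.nonneg _, ?_⟩
  rw [h.chq_eq (norm_nonneg f) fun x => (le_abs_self _).trans (f.norm_coe_le_norm x)]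
  refine (intervalIntegral.integral_mono_on (g := fun _ => F 1) (norm_nonneg f)
    (h.anti' _).intervalIntegrable (by simp) fun t _ => h.mono _ _ (by simp)).trans ?_
  simp [mul_comm]

lemma lin_add (f g : C(X, ℝ)) :
    chq F (f + g) - chq F (-(f + g)) = chq F f - chq F (-f) + (chq F g - chq F (-g)) := by
  have p0 : ∀ (f : C(X, ℝ)) x, 0 ≤ f⁺ x := fun f x => posPart_nonneg f x
  have e : (f + g)⁺ + (-f)⁺ + (-g)⁺ = (-(f + g))⁺ + f⁺ + g⁺ := by
    have a1 := posPart_sub_negPart f
    have a2 := posPart_sub_negPart g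
    have a3 := posPart_sub_negPart (f + g)
    simp only [posPart_neg]
    linear_combination a3 - a1 - a2
  have := congrArg (chq F) e
  rw [h.chq_add _ _ (fun x => add_nonneg (p0 _ x) (p0 _ x)) (p0 _), h.chq_add _ _ (p0 _) (p0 _),
    h.chq_add _ _ (fun x => add_nonneg (p0 _ x) (p0 _ x)) (p0 _), h.chq_add _ _ (p0 _) (p0 _)]
    at this
  simp only [h.chq_posPart] at this
  linarith

lemma lin_smul (c : ℝ) (f : C(X, ℝ)) :
    chq F (c • f) - chq F (-(c • f)) = c * (chq F f - chq F (-f)) := by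
  let L : C(X, ℝ) →+ ℝ := AddMonoidHom.mk' (fun f => chq F f - chq F (-f)) h.lin_add
  have hL : Continuous L := AddMonoidHomClass.continuous_of_bound L (F 1) fun f => by
    have a := h.chq_bound f
    have b := h.chq_bound (-f)
    rw [norm_neg] at b
    exact abs_le.2 ⟨by show _ ≤ chq F f - chq F (-f); linarith,
      by show chq F f - chq F (-f) ≤ _; linarith⟩
  exact map_real_smul L hL c f

end IsVal

end Crest.Agent.QT
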