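import Crest.Agent.QT.Defs
import Crest.Agent.QT.Val

/-! QA: the layer-cake functional of a rank function is linear. -/

set_option autoImplicit false
set_option linter.unusedSectionVars false

open MeasureTheory Set

namespace Crest.Agent.QT

variable {X : Type} [TopologicalSpace X] [CompactSpace X] {ν : C(X, ℝ) → ℝ}

lemma IsRank.le_one {R : Type} [Ring R] {ρ : R → ℝ} (h : IsRank ρ) (x : R) : ρ x ≤ 1 := by
  simpa [h.one] using h.mul x 1 1

lemma exists_div (a b : C(X, ℝ)) (η : ℝ) (hη : 0 < η) (H : ∀ x, a x ≠ 0 → η ≤ b x) :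
    ∃ c : C(X, ℝ), a = c * b ∧ ∀ x, c x ≠ 0 → a x ≠ 0 := by
  refine ⟨⟨fun x => a x / max (b x) η, a.continuous.div (by fun_prop) fun x =>
    (lt_max_of_lt_right hη).ne'⟩, ?_, fun x hx h0 => hx (by simp [h0])⟩
  ext x
  by_cases h : a x = 0
  · simp [h]
  · have := H x h
    simp only [ContinuousMap.mul_apply, ContinuousMap.coe_mk, max_eq_left this]
    field_simp [(hη.trans_le this).ne']

lemma IsRank.dom (h : IsRank ν) (a b : C(X, ℝ)) (η : ℝ) (hη : 0 < η)
    (H : ∀ x, a x ≠ 0 → η ≤ b x) : ν a ≤ ν b := by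
  obtain ⟨c, hc, -⟩ := exists_div a b η hη H
  simpa [← hc] using h.mul c b 1

lemma cut_apply (f : C(X, ℝ)) (t : ℝ) (x : X) : (shf f t ⊔ 0) x = max (f x - t) 0 := by
  simp [shf_apply]

lemma cut_ne {f : C(X, ℝ)} {t : ℝ} {x : X} (h : (shf f t ⊔ 0) x ≠ 0) : t < f x := by
  rw [cut_apply] at h
  by_contra hc
  exact h (max_eq_right (by linarith [not_lt.1 hc]))

/-- lower semicontinuous regularisation -/
noncomputable def reg (ν : C(X, ℝ) → ℝ) (f : C(X, ℝ)) : ℝ :=
  ⨆ ε : Ioi (0 : ℝ), ν (shf f ε ⊔ 0)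

lemma IsRank.le_reg (h : IsRank ν) (f : C(X, ℝ)) {ε : ℝ} (hε : 0 < ε) :
    ν (shf f ε ⊔ 0) ≤ reg ν f :=
  le_ciSup (f := fun ε : Ioi (0 : ℝ) => ν (shf f ε ⊔ 0))
    ⟨1, by rintro _ ⟨ε, rfl⟩; exact h.le_one _⟩ ⟨ε, hε⟩

lemma reg_le {f : C(X, ℝ)} {c : ℝ} (H : ∀ ε, 0 < ε → ν (shf f ε ⊔ 0) ≤ c) : reg ν f ≤ c :=
  ciSup_le fun ε => H ε ε.2

lemma IsRank.reg_mono (h : IsRank ν) (f g : C(X, ℝ)) (H : ∀ x, 0 < f x → 0 < g x) :
    reg ν f ≤ reg ν g := by
  refine reg_le fun ε hε => ?_
  have hK : IsCompact {x | ε ≤ f x} := (isClosed_le continuous_const f.continuous).isCompact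
  obtain ⟨η, hη, h2⟩ := hK.exists_forall_le' g.continuous.continuousOn
    (a := 0) fun x hx => H x (hε.trans_le hx)
  refine (h.dom _ _ (η / 2) (by positivity) fun x hx => ?_).trans
    (h.le_reg g (show 0 < η / 2 by positivity))
  have := h2 x (cut_ne hx).le
  rw [cut_apply]
  exact le_max_of_le_left (by linarith)

lemma IsRank.reg_inner (h : IsRank ν) {f : C(X, ℝ)} {c : ℝ}
    (H : ∀ ε, 0 < ε → reg ν (shf f ε) ≤ c) : reg ν f ≤ c := by
  refine reg_le fun ε hε => le_trans (le_of_eq ?_)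
    ((h.le_reg (shf f (ε / 2)) (half_pos hε)).trans (H _ (half_pos hε)))
  congr 1
  ext x
  simp only [cut_apply, shf_apply]
  ring_nf

lemma IsRank.reg_sup (h : IsRank ν) (f g : C(X, ℝ)) : reg ν (f ⊔ g) ≤ reg ν f + reg ν g := by
  refine reg_le fun ε hε => ?_
  refine (h.dom _ (shf f (ε / 2) ⊔ 0 + shf g (ε / 2) ⊔ 0) (ε / 2) (half_pos hε)
    fun x hx => ?_).trans ((h.add _ _).trans (add_le_add (h.le_reg f (half_pos hε))
      (h.le_reg g (half_pos hε))))
  have := cut_ne hx
  rw [ContinuousMap.sup_apply, lt_max_iff] at this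
  rw [ContinuousMap.add_apply, cut_apply, cut_apply]
  have a := le_max_left (f x - ε / 2) 0
  have b := le_max_right (f x - ε / 2) 0
  have c := le_max_left (g x - ε / 2) 0
  have d := le_max_right (g x - ε / 2) 0
  rcases this with e | e <;> linarith

lemma IsRank.reg_disj (h : IsRank ν) (f g k : C(X, ℝ)) (H : ∀ x, 0 < f x → g x ≤ 0)
    (hf : ∀ x, 0 < f x → 0 < k x) (hg : ∀ x, 0 < g x → 0 < k x) :
    reg ν f + reg ν g ≤ reg ν k := by
  refine le_trans ?_ (h.reg_mono (f ⊔ g) k fun x hx => by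
    rw [ContinuousMap.sup_apply, lt_max_iff] at hx
    exact hx.elim (hf x) (hg x))
  rw [← le_sub_iff_add_le]
  refine reg_le fun ε hε => ?_
  rw [le_sub_comm]
  refine reg_le fun ε' hε' => ?_
  rw [le_sub_comm, le_sub_iff_add_le]
  have hη : 0 < min ε ε' / 2 := half_pos (lt_min hε hε')
  have m1 := min_le_left ε ε'
  have m2 := min_le_right ε ε'
  have key : ∀ (p : C(X, ℝ)) (e : ℝ), min ε ε' ≤ e → (∀ x, p x ≤ (f ⊔ g) x) →
      ∃ u w : C(X, ℝ), shf p e ⊔ 0 = u * (shf (f ⊔ g) (min ε ε' / 2) ⊔ 0) * w ∧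
        (∀ x, u x ≠ 0 → 0 < p x) ∧ ∀ x, w x ≠ 0 → 0 < p x := by
    intro p e he hp
    obtain ⟨u, hu, hu'⟩ := exists_div (shf p e ⊔ 0)
      ((shf (f ⊔ g) (min ε ε' / 2) ⊔ 0) * (shf p (min ε ε' / 2) ⊔ 0)) _ (mul_pos hη hη)
      fun x hx => by
        rw [ContinuousMap.mul_apply, cut_apply, cut_apply]
        exact mul_le_mul (le_max_of_le_left (by linarith [cut_ne hx, hp x]))
          (le_max_of_le_left (by linarith [cut_ne hx])) hη.le (le_max_right _ _)
    exact ⟨u, _, by rw [mul_assoc]; exact hu, fun x hx => by linarith [cut_ne (hu' x hx)],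
      fun x hx => hη.trans (cut_ne hx)⟩
  obtain ⟨u, u', e1, e2, e3⟩ := key f ε m1 fun x => le_max_left _ _
  obtain ⟨v, v', e4, e5, e6⟩ := key g ε' m2 fun x => le_max_right _ _
  rw [e1, e4]
  refine (h.orth _ _ _ _ _ ?_ ?_).trans (h.le_reg _ hη)
  · ext x
    by_contra hc
    rw [ContinuousMap.mul_apply, ContinuousMap.mul_apply, ContinuousMap.zero_apply] at hc
    linarith [H x (e2 x (left_ne_zero_of_mul (left_ne_zero_of_mul hc))),
      e6 x (right_ne_zero_of_mul hc)]
  · ext x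
    by_contra hc
    rw [ContinuousMap.mul_apply, ContinuousMap.mul_apply, ContinuousMap.zero_apply] at hc
    linarith [H x (e3 x (right_ne_zero_of_mul hc)),
      e5 x (left_ne_zero_of_mul (left_ne_zero_of_mul hc))]

lemma IsRank.isVal (h : IsRank ν) : IsVal (reg ν) where
  zero := le_antisymm (reg_le fun ε hε => by
      have : shf (0 : C(X, ℝ)) ε ⊔ 0 = 0 := by ext x; simp [cut_apply, shf_apply, hε.le]
      rw [this, h.zero]) ((h.nonneg _).trans (h.le_reg 0 one_pos))
  mono := h.reg_mono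
  modu f g := by
    apply le_antisymm
    · rw [← le_sub_iff_add_le']
      refine h.reg_inner fun ε hε => ?_
      have a := h.reg_disj (shf (f ⊓ g) ε) (g ⊓ -shf (f ⊓ g) ε) g
        (fun x hx => (min_le_right _ _).trans (neg_nonpos.2 hx.le))
        (fun x hx => by
          rw [shf_apply, ContinuousMap.inf_apply] at hx
          linarith [min_le_right (f x) (g x)])
        (fun x hx => hx.trans_le (min_le_left _ _))
      have b := (h.reg_mono (f ⊔ g) _ fun x hx => by
        simp only [ContinuousMap.sup_apply, ContinuousMap.inf_apply, ContinuousMap.neg_apply,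
          shf_apply, lt_max_iff, lt_min_iff] at hx ⊢
        by_cases hf : 0 < f x
        · exact Or.inl hf
        · exact Or.inr ⟨hx.resolve_left hf, by linarith [min_le_left (f x) (g x)]⟩).trans
        (h.reg_sup f (g ⊓ -shf (f ⊓ g) ε))
      linarith
    · rw [← le_sub_iff_add_le]
      refine h.reg_inner fun ε hε => ?_
      have a := h.reg_disj (shf f ε) (g ⊓ -shf f ε) (f ⊔ g)
        (fun x hx => (min_le_right _ _).trans (neg_nonpos.2 hx.le))
        (fun x hx => by
          rw [shf_apply] at hx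
          exact lt_max_of_lt_left (by linarith))
        (fun x hx => lt_max_of_lt_right (hx.trans_le (min_le_left _ _)))
      have b := (h.reg_mono g _ fun x hx => by
        simp only [ContinuousMap.sup_apply, ContinuousMap.inf_apply, ContinuousMap.neg_apply,
          shf_apply, lt_max_iff, lt_min_iff]
        by_cases hf : 0 < f x
        · exact Or.inr ⟨hf, hx⟩
        · exact Or.inl ⟨hx, by linarith⟩).trans (h.reg_sup (g ⊓ -shf f ε) (f ⊓ g))
      linarith

lemma IsRank.cut_anti (h : IsRank ν) (f : C(X, ℝ)) : Antitone fun t => ν (shf f t ⊔ 0) := by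
  intro s t hst
  rcases hst.eq_or_lt with rfl | hst
  · exact le_rfl
  · exact h.dom _ _ (t - s) (by linarith) fun x hx => by
      rw [cut_apply]; exact le_max_of_le_left (by linarith [cut_ne hx])

lemma shf_shf (f : C(X, ℝ)) (s t : ℝ) : shf (shf f s) t = shf f (s + t) := by
  ext x; simp only [shf_apply]; ring

lemma IsRank.int_eq (h : IsRank ν) (f : C(X, ℝ)) :
    ∫ t in Ioi (0 : ℝ), ν (shf f t ⊔ 0) = chq (reg ν) f := by
  refine integral_congr_ae (ae_restrict_of_ae ?_)
  have hc := (h.cut_anti f).countable_not_continuousAt.ae_notMem (volume : Measure ℝ)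
  filter_upwards [hc] with t ht
  simp only [mem_setOf_eq, not_not] at ht
  apply le_antisymm
  · have : Filter.Tendsto (fun s => ν (shf f s ⊔ 0)) (nhdsWithin t (Ioi t))
        (nhds (ν (shf f t ⊔ 0))) := ht.tendsto.mono_left nhdsWithin_le_nhds
    refine le_of_tendsto this (eventually_nhdsWithin_of_forall fun s hs => ?_)
    have := h.le_reg (shf f t) (sub_pos.2 hs)
    rwa [shf_shf, add_sub_cancel] at this
  · refine reg_le fun ε hε => ?_
    rw [shf_shf]
    exact h.cut_anti f (by linarith)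

theorem layer : LayerStmt := by
  intro X _ _ _ ν h
  have hV := h.isVal
  have hneg : ∀ f : C(X, ℝ), (∀ x, 0 ≤ f x) → chq (reg ν) (-f) = 0 := fun f hf => by
    rw [hV.chq_eq le_rfl fun x => neg_nonpos.2 (hf x)]; simp
  refine ⟨⟨⟨fun f => chq (reg ν) f - chq (reg ν) (-f), hV.lin_add⟩, hV.lin_smul⟩, ?_, fun f => ?_⟩
  · show chq (reg ν) 1 - chq (reg ν) (-1) = 1
    rw [hneg 1 (by simp), sub_zero, hV.chq_eq zero_le_one (by simp),
      intervalIntegral.integral_of_le zero_le_one, integral_Ioc_eq_integral_Ioo,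
      setIntegral_congr_fun (g := fun _ => 1) measurableSet_Ioo]
    · simp
    · intro t ht
      refine le_antisymm (reg_le fun ε _ => h.le_one _) ?_
      have h2 : 0 < (1 - t) / 2 := by linarith [ht.2]
      refine le_trans ?_ (h.le_reg _ h2)
      refine h.one.symm.trans_le (h.dom _ _ _ h2 fun x _ => ?_)
      rw [cut_apply, shf_apply, ContinuousMap.one_apply]
      exact le_max_of_le_left (by linarith)
  · show ∫ t in Ioi (0 : ℝ), ν (shf f t ⊔ 0) = chq (reg ν) (f ⊔ 0) - chq (reg ν) (-(f ⊔ 0))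
    rw [hneg _ fun x => le_max_right _ _, sub_zero, h.int_eq]
    exact (hV.chq_posPart f).symm

end Crest.Agent.QT
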