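import Crest.Agent.QT.Defs

/-! L: the lower bound for the defect of additivity. -/

set_option autoImplicit false

namespace Crest.Agent.QT

open Crest.OpAlg

section

variable {A : Type} [CStarAlgebra A] {τ : A → ℂ}

lemma low_lin (hτ : IsOneQuasitrace τ) {h k : A} (hh : IsSelfAdjoint h) (hk : IsSelfAdjoint k)
    (hc : Commute h k) : τ (h + k) = τ h + τ k ∧ ∀ c : ℂ, τ (c • h) = c * τ h := by
  have hm : IsMulCommutative (StarAlgebra.adjoin ℂ ({h, k} : Set A)) := by
    refine StarAlgebra.isMulCommutative_adjoin ℂ ?_ ?_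
    · rintro x (rfl | rfl) y (rfl | rfl)
      · rfl
      · exact hc.eq
      · exact hc.eq.symm
      · rfl
    · rintro x (rfl | rfl) y (rfl | rfl)
      · rw [hh.star_eq]
      · rw [hk.star_eq]; exact hc.eq
      · rw [hh.star_eq]; exact hc.eq.symm
      · rw [hk.star_eq]
  obtain ⟨h1, h2⟩ := hτ.2.2 (StarAlgebra.adjoin ℂ ({h, k} : Set A))
    fun x hx y hy => setLike_mul_comm hx hy
  have m1 : h ∈ StarAlgebra.adjoin ℂ ({h, k} : Set A) :=
    StarAlgebra.subset_adjoin ℂ _ (by simp)
  have m2 : k ∈ StarAlgebra.adjoin ℂ ({h, k} : Set A) :=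
    StarAlgebra.subset_adjoin ℂ _ (by simp)
  exact ⟨h1 h m1 k m2, fun c => h2 c h m1⟩

variable [PartialOrder A] [StarOrderedRing A]

lemma low_nonneg (hτ : IsOneQuasitrace τ) {a : A} (ha : 0 ≤ a) : 0 ≤ (τ a).re := by
  have e : a = star (CFC.sqrt a) * CFC.sqrt a := by
    rw [(CFC.sqrt_nonneg a).isSelfAdjoint.star_eq, CFC.sqrt_mul_sqrt_self a ha]
  rw [e]
  exact (hτ.1 _).2.2

omit [PartialOrder A] [StarOrderedRing A] in
lemma low_compl (hτ : IsOneQuasitrace τ) (h1 : τ 1 = 1) {a : A} (ha : IsSelfAdjoint a) :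
    τ (1 - a) = 1 - τ a := by
  have := (low_lin hτ ha ((IsSelfAdjoint.one A).sub ha)
    ((Commute.one_right a).sub_right (Commute.refl a))).1
  rw [add_sub_cancel, h1] at this
  rw [this]; ring

lemma low_le_one (hτ : IsOneQuasitrace τ) (h1 : τ 1 = 1) {a : A} (ha : IsSelfAdjoint a)
    (hl : a ≤ 1) : (τ a).re ≤ 1 := by
  have := low_nonneg hτ (sub_nonneg.2 hl)
  rw [low_compl hτ h1 ha] at this
  simpa using this

lemma low_orth (hτ : IsOneQuasitrace τ) (h1 : τ 1 = 1) {F y : A} (hF : IsSelfAdjoint F)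
    (hF1 : F ≤ 1) (hy : star y * y ≤ 1) (hFy : F * y = 0) :
    (τ F).re + (τ (star y * y)).re ≤ 1 := by
  have hY : IsSelfAdjoint (y * star y) := IsSelfAdjoint.mul_star_self y
  have hY1 : y * star y ≤ 1 := by
    rw [← CStarAlgebra.norm_le_one_iff_of_nonneg _ (mul_star_self_nonneg y),
      CStarRing.norm_self_mul_star, ← CStarRing.norm_star_mul_self,
      CStarAlgebra.norm_le_one_iff_of_nonneg _ (star_mul_self_nonneg y)]
    exact hy
  have e1 : F * (y * star y) = 0 := by rw [← mul_assoc, hFy, zero_mul]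
  have e2 : (y * star y) * F = 0 := by
    have := congrArg star e1
    rwa [star_mul, hY.star_eq, hF.star_eq, star_zero] at this
  have hc : Commute F (y * star y) := e1.trans e2.symm
  have hle : F + y * star y ≤ 1 := by
    have := Commute.mul_nonneg (sub_nonneg.2 hF1) (sub_nonneg.2 hY1)
      (((Commute.one_left _).sub_left ((Commute.one_right _).sub_right hc)))
    rw [sub_mul, one_mul, mul_sub, mul_one, e1, sub_zero, sub_sub, add_comm] at this
    exact sub_nonneg.1 this
  have := low_le_one hτ h1 (hF.add hY) hle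
  rw [(low_lin hτ hF hY hc).1, ← (hτ.1 y).1] at this
  simpa using this

lemma low_M (hτ : IsOneQuasitrace τ) (h1 : τ 1 = 1) {F G al be : A} (hF : IsSelfAdjoint F)
    (hF1 : F ≤ 1) (hG : IsSelfAdjoint G) (hG1 : G ≤ 1) (ha : F * al = 0) (hb : G * be = 0)
    (hc : IsStrictlyPositive (star al * al + star be * be)) : (τ F).re + (τ G).re ≤ 1 := by
  set c := star al * al + star be * be with hcd
  set r := c ^ (-(1 / 2) : ℝ) with hr
  have hrs : IsSelfAdjoint r := (CFC.rpow_nonneg (a := c) (y := (-(1 / 2) : ℝ))).isSelfAdjoint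
  have key : r * c * r = 1 := CFC.conjugate_rpow_neg_one_half c hc
  have e : star (al * r) * (al * r) + star (be * r) * (be * r) = 1 := by
    rw [← key, hcd, star_mul, star_mul, hrs.star_eq]
    noncomm_ring
  have p1 := star_mul_self_nonneg (al * r)
  have p2 := star_mul_self_nonneg (be * r)
  have l1 : star (al * r) * (al * r) ≤ 1 := by rw [← e]; exact le_add_of_nonneg_right p2
  have l2 : star (be * r) * (be * r) ≤ 1 := by rw [← e]; exact le_add_of_nonneg_left p1
  have o1 := low_orth hτ h1 hF hF1 l1 (by rw [← mul_assoc, ha, zero_mul])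
  have o2 := low_orth hτ h1 hG hG1 l2 (by rw [← mul_assoc, hb, zero_mul])
  have e' : star (be * r) * (be * r) = 1 - star (al * r) * (al * r) := by
    rw [← e]; abel
  rw [e', low_compl hτ h1 p1.isSelfAdjoint] at o2
  simp only [Complex.sub_re, Complex.one_re] at o2
  linarith

/-- The layers. -/
noncomputable def lay (k : ℝ) (s : ℝ) : ℝ := min 1 (max 0 (14 * s - k))

lemma lay_cont (k : ℝ) : Continuous (lay k) := by unfold lay; fun_prop

lemma lay_sum {s : ℝ} (hs : 0 ≤ s) (n : ℕ) :
    ∑ k ∈ Finset.range n, lay k s = min (n : ℝ) (14 * s) := by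
  induction n with
  | zero => simp [hs]
  | succ n ih =>
    rw [Finset.sum_range_succ, ih, lay]
    push_cast
    simp only [min_def, max_def]
    split_ifs <;> linarith

lemma low_pair (hτ : IsOneQuasitrace τ) (h1 : τ 1 = 1) {q q' : A} (hq : IsSelfAdjoint q)
    (hq' : IsSelfAdjoint q') (hs : q + q' ≤ algebraMap ℝ A (1 / 2)) {k l : ℝ} (hkl : k + l = 8) :
    (τ (cfc (lay k) q)).re + (τ (cfc (lay l) q')).re ≤ 1 := by
  have le1 : ∀ (k : ℝ) (q : A), cfc (lay k) q ≤ 1 := fun k q =>
    cfc_le_one _ _ fun s _ => min_le_left _ _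
  have z : ∀ (k : ℝ) (q : A), cfc (lay k) q * cfc (fun s : ℝ => √(k / 14 - s)) q = 0 := by
    intro k q
    rw [← cfc_mul _ _ q (lay_cont k).continuousOn (by fun_prop), ← cfc_zero ℝ q]
    congr 1
    funext s
    rcases le_total s (k / 14) with c | c
    · have : lay k s = 0 := by
        unfold lay
        rw [max_eq_left (by linarith), min_eq_right zero_le_one]
      simp [this]
    · rw [Real.sqrt_eq_zero'.2 (by linarith)]; simp
  have lo : ∀ (k : ℝ) (q : A), IsSelfAdjoint q → algebraMap ℝ A (k / 14) - q ≤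
      star (cfc (fun s : ℝ => √(k / 14 - s)) q) * cfc (fun s : ℝ => √(k / 14 - s)) q := by
    intro k q hq
    rw [(IsSelfAdjoint.cfc (f := fun s : ℝ => √(k / 14 - s)) (a := q)).star_eq,
      ← cfc_mul _ _ q (by fun_prop) (by fun_prop)]
    have : algebraMap ℝ A (k / 14) - q = cfc (fun s : ℝ => k / 14 - s) q := by
      rw [cfc_sub _ _ q (by fun_prop) (by fun_prop), cfc_const _ _ hq, cfc_id' ℝ q hq]
    rw [this]
    refine cfc_mono (fun s _ => ?_) (by fun_prop) (by fun_prop)
    rcases le_total 0 (k / 14 - s) with c | c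
    · rw [Real.mul_self_sqrt c]
    · exact c.trans (mul_self_nonneg _)
  refine low_M hτ h1 IsSelfAdjoint.cfc (le1 k q) IsSelfAdjoint.cfc (le1 l q') (z k q) (z l q') ?_
  have hp : IsStrictlyPositive (algebraMap ℝ A (1 / 14)) :=
    isStrictlyPositive_algebraMap (by norm_num)
  refine hp.of_le (le_trans ?_ (add_le_add (lo k q hq) (lo l q' hq')))
  have : algebraMap ℝ A (k / 14) - q + (algebraMap ℝ A (l / 14) - q') =
      algebraMap ℝ A (1 / 14) + (algebraMap ℝ A (1 / 2) - (q + q')) := by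
    have : k / 14 + l / 14 = 1 / 14 + 1 / 2 := by linarith
    have := congrArg (algebraMap ℝ A) this
    rw [map_add, map_add] at this
    rw [sub_add_sub_comm, this]; abel
  rw [this]
  exact le_add_of_nonneg_right (sub_nonneg.2 hs)

lemma low_layers (hτ : IsOneQuasitrace τ) {q : A} (hq : 0 ≤ q)
    (hs : q ≤ algebraMap ℝ A (1 / 2)) :
    14 * (τ q).re = ∑ k ∈ Finset.range 7, (τ (cfc (lay k) q)).re := by
  have hsa := hq.isSelfAdjoint
  have S : ∀ n : ℕ, τ (cfc (fun s => ∑ k ∈ Finset.range n, lay k s) q) =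
      ∑ k ∈ Finset.range n, τ (cfc (lay k) q) := by
    intro n
    induction n with
    | zero =>
      have := (low_lin hτ hsa hsa (Commute.refl _)).2 0
      simpa using this
    | succ n ih =>
      have c1 : Continuous fun s => ∑ k ∈ Finset.range n, lay k s :=
        continuous_finsetSum _ fun k _ => lay_cont k
      simp only [Finset.sum_range_succ]
      rw [cfc_add _ _ _ c1.continuousOn (lay_cont n).continuousOn,
        (low_lin hτ IsSelfAdjoint.cfc IsSelfAdjoint.cfc (cfc_commute_cfc _ _ _)).1, ih]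
  have e : cfc (fun s => ∑ k ∈ Finset.range 7, lay k s) q = (14 : ℂ) • q := by
    have : (14 : ℂ) • q = cfc (fun s : ℝ => (14 : ℝ) • s) q := by
      rw [cfc_smul _ _ q (by fun_prop), cfc_id' ℝ q hsa, ← Complex.coe_smul]
      norm_num
    rw [this]
    refine cfc_congr fun s hs' => ?_
    have s0 : 0 ≤ s := spectrum_nonneg_of_nonneg hq hs'
    have s1 : s ≤ 1 / 2 := (le_algebraMap_iff_spectrum_le (a := q) hsa).1 hs s hs'
    simp only [smul_eq_mul]
    rw [lay_sum s0, min_eq_right (by push_cast; linarith)]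
  have := S 7
  rw [e, (low_lin hτ hsa hsa (Commute.refl _)).2] at this
  have := congrArg Complex.re this
  rw [Complex.re_sum] at this
  simpa using this

lemma low_two (hτ : IsOneQuasitrace τ) (h1 : τ 1 = 1) {q q' : A} (hq : 0 ≤ q)
    (hq' : 0 ≤ q') (hs : q + q' ≤ algebraMap ℝ A (1 / 2)) :
    14 * ((τ q).re + (τ q').re) ≤ 9 := by
  have a1 := low_layers hτ hq ((le_add_of_nonneg_right hq').trans hs)
  have a2 := low_layers hτ hq' ((le_add_of_nonneg_left hq).trans hs)
  have le1 : ∀ (k : ℝ) (q : A), (τ (cfc (lay k) q)).re ≤ 1 := fun k q =>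
    low_le_one hτ h1 IsSelfAdjoint.cfc (cfc_le_one _ _ fun s _ => min_le_left _ _)
  have P := fun k l h => low_pair hτ h1 hq.isSelfAdjoint hq'.isSelfAdjoint hs (k := k) (l := l) h
  simp only [Finset.sum_range_succ, Finset.sum_range_zero] at a1 a2
  push_cast at a1 a2
  linarith [le1 0 q, le1 1 q, le1 0 q', le1 1 q', P 2 6 (by norm_num), P 3 5 (by norm_num),
    P 4 4 (by norm_num), P 5 3 (by norm_num), P 6 2 (by norm_num)]

end

theorem low : LowStmt := by
  intro A _ x hx
  let := CStarAlgebra.spectralOrder A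
  have := CStarAlgebra.spectralOrderedRing A
  obtain ⟨h1, h2⟩ := hx
  rw [Fin.sum_univ_three] at h1 h2
  have p0 := star_mul_self_nonneg (x 0)
  have p1 := star_mul_self_nonneg (x 1)
  have p2 := star_mul_self_nonneg (x 2)
  have q0 := mul_star_self_nonneg (x 0)
  have q1 := mul_star_self_nonneg (x 1)
  have q2 := mul_star_self_nonneg (x 2)
  rw [CStarAlgebra.norm_le_iff_le_algebraMap _ (by norm_num)
    (add_nonneg (add_nonneg q0 q1) q2)] at h2
  refine ⟨?_, ?_, fun τ hτ hτ1 => ?_⟩
  · rw [CStarAlgebra.norm_le_one_iff_of_nonneg _ p0, ← h1, add_assoc]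
    exact le_add_of_nonneg_right (add_nonneg p1 p2)
  · rw [CStarAlgebra.norm_le_one_iff_of_nonneg _ p1, ← h1]
    exact (le_add_of_nonneg_left p0).trans (le_add_of_nonneg_right p2)
  have a := low_two hτ hτ1 q0 q1 ((le_add_of_nonneg_right q2).trans h2)
  have b := low_two hτ hτ1 q1 q2 (le_trans (by
    rw [add_assoc]; exact le_add_of_nonneg_left q0) h2)
  have c := low_two hτ hτ1 q0 q2 (le_trans (by
    rw [add_right_comm]; exact le_add_of_nonneg_right q1) h2)
  have e : star (x 0) * x 0 + star (x 1) * x 1 = 1 - star (x 2) * x 2 := by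
    rw [← h1]; abel
  rw [e, low_compl hτ hτ1 p2.isSelfAdjoint, (hτ.1 (x 0)).1, (hτ.1 (x 1)).1, (hτ.1 (x 2)).1]
  simp only [Complex.sub_re, Complex.one_re]
  linarith

end Crest.Agent.QT
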