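import Crest.Agent.QT.Defs

/-! QC: a rank function on a C⋆-algebra gives a 1-quasitrace. -/

set_option autoImplicit false

namespace Crest.Agent.QT

open Crest.OpAlg MeasureTheory
open scoped ComplexStarModule

/-- The layer-cake functional. -/
noncomputable def Tq {B : Type} [CStarAlgebra B] (ρ : B → ℝ) (h : B) : ℝ :=
  (∫ t in Set.Ioi (0 : ℝ), ρ ((h - algebraMap ℝ B t)⁺)) -
    ∫ t in Set.Ioi (0 : ℝ), ρ ((-h - algebraMap ℝ B t)⁺)

lemma map_sup_zero {X B : Type} [TopologicalSpace X] [CStarAlgebra B]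
    (π : C(X, ℝ) →⋆ₐ[ℝ] B) (g : C(X, ℝ)) : π (g ⊔ 0) = (π g)⁺ := by
  let := CStarAlgebra.spectralOrder B
  have := CStarAlgebra.spectralOrderedRing B
  have pos : ∀ u : C(X, ℝ), 0 ≤ π (u ⊔ 0) := by
    intro u
    let s : C(X, ℝ) := ⟨fun x => Real.sqrt (u x), by fun_prop⟩
    have : u ⊔ 0 = star s * s := by
      ext x
      simp only [ContinuousMap.sup_apply, ContinuousMap.zero_apply, ContinuousMap.mul_apply,
        star_trivial, s, ContinuousMap.coe_mk]
      rcases le_total (u x) 0 with c | c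
      · rw [max_eq_right c, Real.sqrt_eq_zero'.2 c, mul_zero]
      · rw [max_eq_left c, Real.mul_self_sqrt c]
    rw [this, map_mul, map_star]
    exact star_mul_self_nonneg _
  refine (CFC.posPart_negPart_unique (c := π (-g ⊔ 0)) ?_ ?_ (pos g) (pos (-g))).1.symm
  · rw [← map_sub]
    congr 1
    ext x
    simp only [ContinuousMap.sub_apply, ContinuousMap.sup_apply, ContinuousMap.zero_apply,
      ContinuousMap.neg_apply]
    rcases le_total (g x) 0 with c | c
    · rw [max_eq_right c, max_eq_left (neg_nonneg.2 c)]; ring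
    · rw [max_eq_left c, max_eq_right (neg_nonpos.2 c)]; ring
  · rw [← map_mul, ← map_zero π]
    congr 1
    ext x
    simp only [ContinuousMap.mul_apply, ContinuousMap.sup_apply, ContinuousMap.zero_apply,
      ContinuousMap.neg_apply]
    rcases le_total (g x) 0 with c | c
    · rw [max_eq_right c, zero_mul]
    · rw [max_eq_right (neg_nonpos.2 c), mul_zero]

lemma IsRank.comap {R S F : Type} [Ring R] [Ring S] [FunLike F R S] [RingHomClass F R S]
    {ρ : S → ℝ} (h : IsRank ρ) (π : F) : IsRank fun r => ρ (π r) where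
  one := by rw [map_one, h.one]
  zero := by rw [map_zero, h.zero]
  nonneg x := h.nonneg _
  mul c x d := by rw [map_mul, map_mul]; exact h.mul _ _ _
  add x y := by rw [map_add]; exact h.add _ _
  orth z u u' v v' h1 h2 := by
    simp only [map_mul]
    refine h.orth _ _ _ _ _ ?_ ?_
    · rw [← map_mul, ← map_mul, h1, map_zero]
    · rw [← map_mul, ← map_mul, h2, map_zero]

lemma Tq_map (hA : LayerStmt) {X B : Type} [TopologicalSpace X] [CompactSpace X] [T2Space X]
    [CStarAlgebra B] {ρ : B → ℝ} (hρ : IsRank ρ) (π : C(X, ℝ) →⋆ₐ[ℝ] B) :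
    ∃ Λ : C(X, ℝ) →ₗ[ℝ] ℝ, Λ 1 = 1 ∧ ∀ f, Tq ρ (π f) = Λ f := by
  obtain ⟨Λ, h1, hΛ⟩ := hA X (fun f => ρ (π f)) (hρ.comap π)
  refine ⟨Λ, h1, fun f => ?_⟩
  have e : ∀ g : C(X, ℝ), ∫ t in Set.Ioi (0 : ℝ), ρ ((π g - algebraMap ℝ B t)⁺) = Λ (g ⊔ 0) := by
    intro g
    rw [← hΛ g]
    congr 1
    funext t
    rw [map_sup_zero, map_sub, AlgHomClass.commutes]
  rw [Tq, e, ← map_neg, e, ← map_sub]
  congr 1
  ext x
  simp only [ContinuousMap.sub_apply, ContinuousMap.sup_apply, ContinuousMap.zero_apply,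
    ContinuousMap.neg_apply]
  rcases le_total (f x) 0 with c | c
  · rw [max_eq_right c, max_eq_left (neg_nonneg.2 c)]; ring
  · rw [max_eq_left c, max_eq_right (neg_nonpos.2 c)]; ring

lemma exists_pi {B : Type} [CStarAlgebra B] {h k : B} (hh : IsSelfAdjoint h)
    (hk : IsSelfAdjoint k) (hc : h * k = k * h) :
    ∃ (X : Type) (_ : TopologicalSpace X) (_ : CompactSpace X) (_ : T2Space X)
      (π : C(X, ℝ) →⋆ₐ[ℝ] B) (f g : C(X, ℝ)), π f = h ∧ π g = k := by
  set z : B := h + Complex.I • k with hz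
  have hs : star z = h - Complex.I • k := by
    rw [hz, star_add, star_smul, hh, hk, Complex.star_def, Complex.conj_I, neg_smul,
      sub_eq_add_neg]
  have hn : IsStarNormal z := by
    constructor
    rw [Commute, SemiconjBy, hs, hz]
    simp only [mul_add, add_mul, mul_sub, sub_mul, mul_smul_comm, smul_mul_assoc, hc]
    module
  let φ : C(spectrum ℂ z, ℂ) →⋆ₐ[ℂ] B := cfcHom hn
  let π : C(spectrum ℂ z, ℝ) →⋆ₐ[ℝ] B :=
    (φ.restrictScalars ℝ).comp (ContinuousMap.realToRCLikeStarAlgHom (spectrum ℂ z) ℂ)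
  let i : C(spectrum ℂ z, ℂ) := (ContinuousMap.id ℂ).restrict (spectrum ℂ z)
  have hi : φ i = z := cfcHom_id hn
  refine ⟨spectrum ℂ z, inferInstance, inferInstance, inferInstance, π,
    ⟨fun x => (x : ℂ).re, by fun_prop⟩, ⟨fun x => (x : ℂ).im, by fun_prop⟩, ?_, ?_⟩
  · have : ContinuousMap.realToRCLikeStarAlgHom (spectrum ℂ z) ℂ
        ⟨fun x => (x : ℂ).re, by fun_prop⟩ = (2 : ℂ)⁻¹ • (i + star i) := by
      ext x
      simp [i, Complex.add_conj]
    change φ (ContinuousMap.realToRCLikeStarAlgHom (spectrum ℂ z) ℂ _) = h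
    rw [this, map_smul, map_add, map_star, hi, hs, hz]
    module
  · have : ContinuousMap.realToRCLikeStarAlgHom (spectrum ℂ z) ℂ
        ⟨fun x => (x : ℂ).im, by fun_prop⟩ = (-Complex.I * (2 : ℂ)⁻¹) • (i - star i) := by
      ext x
      simp only [i, ContinuousMap.realToRCLikeStarAlgHom_apply, ContinuousMap.realToRCLike_apply,
        ContinuousMap.coe_mk, ContinuousMap.smul_apply, ContinuousMap.sub_apply,
        ContinuousMap.star_apply, ContinuousMap.restrict_apply, ContinuousMap.id_apply,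
        Complex.star_def, Complex.sub_conj, smul_eq_mul, Complex.coe_algebraMap]
      push_cast
      linear_combination (((x : ℂ).im : ℂ)) * Complex.I_mul_I
    change φ (ContinuousMap.realToRCLikeStarAlgHom (spectrum ℂ z) ℂ _) = k
    rw [this, map_smul, map_sub, map_star, hi, hs, hz]
    match_scalars
    · ring
    · linear_combination (-1 : ℂ) * Complex.I_mul_I

lemma Tq_lin (hA : LayerStmt) {B : Type} [CStarAlgebra B] {ρ : B → ℝ} (hρ : IsRank ρ) {h k : B}
    (hh : IsSelfAdjoint h) (hk : IsSelfAdjoint k) (hc : h * k = k * h) (a b : ℝ) :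
    Tq ρ (a • h + b • k) = a * Tq ρ h + b * Tq ρ k := by
  obtain ⟨X, _, _, _, π, f, g, rfl, rfl⟩ := exists_pi hh hk hc
  obtain ⟨Λ, -, hΛ⟩ := Tq_map hA hρ π
  rw [← map_smul, ← map_smul, ← map_add, hΛ, hΛ, hΛ, map_add, map_smul, map_smul, smul_eq_mul,
    smul_eq_mul]

lemma Tq_one (hA : LayerStmt) {B : Type} [CStarAlgebra B] {ρ : B → ℝ} (hρ : IsRank ρ) :
    Tq ρ 1 = 1 := by
  obtain ⟨X, _, _, _, π, -⟩ := exists_pi (IsSelfAdjoint.one B) (IsSelfAdjoint.one B) rfl
  obtain ⟨Λ, h1, hΛ⟩ := Tq_map hA hρ π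
  rw [← map_one π, hΛ, h1]

lemma Tq_pos {B : Type} [CStarAlgebra B] {ρ : B → ℝ} (hρ : IsRank ρ) (x : B) :
    Tq ρ (star x * x) = ∫ t in Set.Ioi (0 : ℝ), ρ ((star x * x - algebraMap ℝ B t)⁺) := by
  let := CStarAlgebra.spectralOrder B
  have := CStarAlgebra.spectralOrderedRing B
  have : ∫ t in Set.Ioi (0 : ℝ), ρ ((-(star x * x) - algebraMap ℝ B t)⁺) =
      ∫ t in Set.Ioi (0 : ℝ), (0 : ℝ) := by
    refine setIntegral_congr_fun measurableSet_Ioi fun t ht => ?_
    have h0 : (0 : B) ≤ star x * x + algebraMap ℝ B t := by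
      refine add_nonneg (star_mul_self_nonneg x) ?_
      have : algebraMap ℝ B t = star (algebraMap ℝ B √t) * algebraMap ℝ B √t := by
        rw [← algebraMap_star_comm, star_trivial, ← map_mul, Real.mul_self_sqrt (le_of_lt ht)]
      rw [this]
      exact star_mul_self_nonneg _
    have := (CFC.posPart_negPart_unique (a := -(star x * x) - algebraMap ℝ B t) (b := 0)
      (c := star x * x + algebraMap ℝ B t) (by abel) (zero_mul _) le_rfl h0).1
    simp only [this, hρ.zero]
  rw [Tq, this]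
  simp

theorem one (hA : LayerStmt) (hB : SwapStmt) : OneStmt := by
  intro B _ ρ hρ
  have T0 : Tq ρ 0 = 0 := by
    simpa using Tq_lin hA hρ (IsSelfAdjoint.zero B) (IsSelfAdjoint.zero B) rfl 0 0
  have sa : ∀ h : B, IsSelfAdjoint h →
      (Tq ρ (ℜ h : B) : ℂ) + Complex.I * Tq ρ (ℑ h : B) = Tq ρ h := by
    intro h hh
    rw [hh.coe_realPart, hh.imaginaryPart]
    simp [T0]
  refine ⟨fun z => (Tq ρ (ℜ z : B) : ℂ) + Complex.I * Tq ρ (ℑ z : B), ⟨fun x => ?_, ?_, ?_⟩, ?_⟩
  · simp only [sa _ (IsSelfAdjoint.star_mul_self x), sa _ (IsSelfAdjoint.mul_star_self x)]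
    refine ⟨?_, Complex.ofReal_im _, ?_⟩
    · congr 1
      have := Tq_pos hρ (star x)
      rw [star_star] at this
      rw [Tq_pos hρ x, this]
      exact setIntegral_congr_fun measurableSet_Ioi fun t ht => hB B ρ hρ x t ht
    · rw [Complex.ofReal_re, Tq_pos hρ x]
      exact integral_nonneg fun t => hρ.nonneg _
  · intro h k hh hk
    simp only [sa _ hh, sa _ hk]
    rw [map_add, map_add, realPart_I_smul, imaginaryPart_I_smul, hh.imaginaryPart,
      hk.imaginaryPart, neg_zero, add_zero, zero_add, hh.coe_realPart, hk.coe_realPart]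
  · intro S hS
    have mR : ∀ x ∈ S, (ℜ x : B) ∈ S := by
      intro x hx
      rw [realPart_apply_coe, ← Complex.coe_smul]
      exact S.smul_mem (add_mem hx (star_mem hx)) _
    have mI : ∀ x ∈ S, (ℑ x : B) ∈ S := by
      intro x hx
      rw [imaginaryPart_apply_coe, ← Complex.coe_smul]
      exact S.smul_mem (S.smul_mem (sub_mem hx (star_mem hx)) _) _
    refine ⟨fun x hx y hy => ?_, fun c x hx => ?_⟩
    · have e1 := Tq_lin hA hρ (ℜ x).2 (ℜ y).2 (hS _ (mR x hx) _ (mR y hy)) 1 1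
      have e2 := Tq_lin hA hρ (ℑ x).2 (ℑ y).2 (hS _ (mI x hx) _ (mI y hy)) 1 1
      simp only [one_smul, one_mul] at e1 e2
      simp only [map_add, AddSubgroup.coe_add, e1, e2]
      push_cast
      ring
    · have e1 := Tq_lin hA hρ (ℜ x).2 (ℑ x).2 (hS _ (mR x hx) _ (mI x hx)) c.re (-c.im)
      have e2 := Tq_lin hA hρ (ℑ x).2 (ℜ x).2 (hS _ (mI x hx) _ (mR x hx)) c.re c.im
      have f1 : (ℜ (c • x) : B) = c.re • (ℜ x : B) + (-c.im) • (ℑ x : B) := by
        rw [realPart_smul, neg_smul, ← sub_eq_add_neg]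
        rfl
      have f2 : (ℑ (c • x) : B) = c.re • (ℑ x : B) + c.im • (ℜ x : B) := by
        rw [imaginaryPart_smul]
        rfl
      simp only [f1, f2, e1, e2]
      conv_rhs => enter [1]; rw [← Complex.re_add_im c]
      push_cast
      linear_combination (-(c.im : ℂ) * Tq ρ (ℑ x : B)) * Complex.I_mul_I
  · simp only [sa _ (IsSelfAdjoint.one B), Tq_one hA hρ, Complex.ofReal_one]

end Crest.Agent.QT
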