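import Crest.Agent.QT.Defs

/-! Q1: a ring with the rank condition carries a rank function. -/

set_option autoImplicit false

namespace Crest.Agent.QT

namespace Rk

open scoped BigOperators
open Matrix

variable {R : Type} [Ring R]

/-- Subequivalence of diagonal matrices. -/
def DLe {s t : Type} [Fintype s] [Fintype t] [DecidableEq s] [DecidableEq t]
    (x : s → R) (y : t → R) : Prop :=
  ∃ (C : Matrix s t R) (D : Matrix t s R), diagonal x = C * diagonal y * D

/-- The multiplicity vector of a family. -/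
noncomputable def vec {s : Type} [Fintype s] (x : s → R) : R →₀ ℝ :=
  ∑ i, Finsupp.single (x i) (1 : ℝ)

section
variable {s t u s' t' : Type} [Fintype s] [Fintype t] [Fintype u] [Fintype s'] [Fintype t']
  [DecidableEq s] [DecidableEq t] [DecidableEq u] [DecidableEq s'] [DecidableEq t']

theorem DLe.trans {x : s → R} {y : t → R} {z : u → R} (h1 : DLe x y) (h2 : DLe y z) :
    DLe x z := by
  obtain ⟨C, D, h⟩ := h1
  obtain ⟨C', D', h'⟩ := h2
  refine ⟨C * C', D' * D, ?_⟩
  rw [h, h']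
  simp only [Matrix.mul_assoc]

theorem DLe.of_inj {x : s → R} {y : t → R} (f : s → t) (hf : Function.Injective f)
    (h : ∀ i, y (f i) = x i) : DLe x y := by
  refine ⟨(1 : Matrix t t R).submatrix f id, (1 : Matrix t t R).submatrix id f, ?_⟩
  have e1 : diagonal x = (diagonal y).submatrix f f := by
    rw [submatrix_diagonal _ _ hf]
    congr 1
    funext i
    exact (h i).symm
  have e2 : ((1 : Matrix t t R) * diagonal y * 1).submatrix f f =
      (1 : Matrix t t R).submatrix f id * diagonal y * (1 : Matrix t t R).submatrix id f := by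
    rw [submatrix_mul _ _ f id f Function.bijective_id,
      submatrix_mul _ _ f id id Function.bijective_id, submatrix_id_id]
  rw [e1, ← e2, Matrix.one_mul, Matrix.mul_one]

theorem DLe.refl (x : s → R) : DLe x x := DLe.of_inj id Function.injective_id fun _ => rfl

theorem DLe.sum {x : s → R} {y : t → R} {x' : s' → R} {y' : t' → R} (h1 : DLe x y)
    (h2 : DLe x' y') : DLe (Sum.elim x x') (Sum.elim y y') := by
  obtain ⟨C, D, h⟩ := h1
  obtain ⟨C', D', h'⟩ := h2
  refine ⟨fromBlocks C 0 0 C', fromBlocks D 0 0 D', ?_⟩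
  rw [← fromBlocks_diagonal, ← fromBlocks_diagonal, fromBlocks_multiply, fromBlocks_multiply, h, h']
  simp

theorem DLe.one (x : s → R) : DLe x (fun _ : s => (1 : R)) :=
  ⟨diagonal x, 1, by simp⟩

omit [Ring R] [DecidableEq s] [DecidableEq t] in
theorem vec_sum (x : s → R) (y : t → R) : vec (Sum.elim x y) = vec x + vec y := by
  simp [vec, Fintype.sum_sum_type]

omit [Ring R] [DecidableEq s] in
theorem vec_const (r : R) : vec (fun _ : s => r) = (Fintype.card s : ℝ) • Finsupp.single r 1 := by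
  simp [vec, Finset.sum_const, Nat.cast_smul_eq_nsmul]

omit [Ring R] [DecidableEq s] in
theorem vec_apply [DecidableEq R] (x : s → R) (r : R) :
    vec x r = (Fintype.card {i // x i = r} : ℝ) := by
  rw [vec, Finsupp.finsetSum_apply, Fintype.card_subtype]
  simp [Finsupp.single_apply]

theorem DLe.of_vec {x : s → R} {y : t → R} (h : vec x ≤ vec y) : DLe x y := by
  classical
  have hc : ∀ r, Nonempty ({i // x i = r} ↪ {j // y j = r}) := by
    intro r
    apply Function.Embedding.nonempty_of_card_le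
    have := h r
    rw [vec_apply, vec_apply] at this
    exact_mod_cast this
  let e : ∀ r, {i // x i = r} ↪ {j // y j = r} := fun r => (hc r).some
  have key : ∀ r r' (a : {i // x i = r}) (a' : {i // x i = r'}),
      (e r a).1 = (e r' a').1 → a.1 = a'.1 := by
    intro r r' a a' hh
    have : r = r' := by rw [← (e r a).2, ← (e r' a').2, hh]
    subst this
    exact congrArg Subtype.val ((e r).injective (Subtype.ext hh))
  exact DLe.of_inj (fun i => (e (x i) ⟨i, rfl⟩).1) (fun i i' hh => key _ _ _ _ hh)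
    fun i => (e (x i) ⟨i, rfl⟩).2

theorem not_dle (hR : RC R) (y : t → R) : ¬ DLe (Sum.elim y fun _ : Unit => (1 : R)) y := by
  intro h
  have hn : ∀ n : ℕ, DLe (Sum.elim y fun _ : Fin n => (1 : R)) y := by
    intro n
    induction n with
    | zero => exact DLe.of_vec (by simp [vec_sum, vec_const])
    | succ n ih =>
      refine DLe.trans (y := Sum.elim (Sum.elim y fun _ : Fin n => (1 : R)) fun _ : Unit => (1 : R))
        (DLe.of_vec (le_of_eq ?_)) ((ih.sum (DLe.refl _)).trans h)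
      simp only [vec_sum, vec_const, Fintype.card_fin, Fintype.card_unit, Nat.cast_add,
        Nat.cast_one, add_smul, add_assoc]
  have h1 : DLe (fun _ : Fin (Fintype.card t + 1) => (1 : R)) y :=
    DLe.trans (DLe.of_inj Sum.inr Sum.inr_injective fun _ => rfl) (hn _)
  obtain ⟨C, D, hCD⟩ := h1
  let e : Fin (Fintype.card t) ≃ t := (Fintype.equivFin t).symm
  apply hR (Fintype.card t) (C.submatrix id e) ((diagonal y * D).submatrix e id)
  rw [← submatrix_mul _ _ id e id e.bijective, submatrix_id_id, ← Matrix.mul_assoc, ← hCD]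
  simp

end

/-- The positive vectors. -/
def Pos (w : R →₀ ℝ) : Prop :=
  ∃ (s t : Type) (_ : Fintype s) (_ : Fintype t) (_ : DecidableEq s) (_ : DecidableEq t)
    (x : s → R) (y : t → R), DLe x y ∧ vec y - vec x ≤ w

theorem Pos.mono {w w' : R →₀ ℝ} (h : Pos w) (hw : w ≤ w') : Pos w' := by
  obtain ⟨s, t, _, _, _, _, x, y, h1, h2⟩ := h
  exact ⟨s, t, _, _, _, _, x, y, h1, h2.trans hw⟩

theorem Pos.add {w w' : R →₀ ℝ} (h : Pos w) (h' : Pos w') : Pos (w + w') := by
  obtain ⟨s, t, _, _, _, _, x, y, h1, h2⟩ := h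
  obtain ⟨s', t', _, _, _, _, x', y', h1', h2'⟩ := h'
  refine ⟨s ⊕ s', t ⊕ t', _, _, _, _, Sum.elim x x', Sum.elim y y', h1.sum h1', ?_⟩
  rw [vec_sum, vec_sum]
  have := add_le_add h2 h2'
  refine le_trans (le_of_eq ?_) this
  abel

theorem Pos.zero : Pos (0 : R →₀ ℝ) :=
  ⟨Unit, Unit, _, _, _, _, fun _ => 1, fun _ => 1, DLe.refl _, by simp⟩

theorem Pos.nsmul {w : R →₀ ℝ} (h : Pos w) (n : ℕ) : Pos ((n : ℝ) • w) := by
  induction n with
  | zero => simpa using Pos.zero
  | succ n ih => simpa [add_smul] using ih.add h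

omit [Ring R] in
theorem exists_vec (b : R →₀ ℝ) : ∃ (s : Type) (_ : Fintype s) (_ : DecidableEq s) (z : s → R),
    b ≤ vec z := by
  induction b using Finsupp.induction_linear with
  | zero => exact ⟨Empty, inferInstance, inferInstance, Empty.elim, by simp [vec]⟩
  | add f g hf hg =>
    obtain ⟨s, _, _, x, hx⟩ := hf
    obtain ⟨t, _, _, y, hy⟩ := hg
    exact ⟨s ⊕ t, inferInstance, inferInstance, Sum.elim x y, by rw [vec_sum]; exact add_le_add hx hy⟩
  | single r a =>
    refine ⟨Fin ⌈a⌉₊, inferInstance, inferInstance, fun _ => r, ?_⟩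
    rw [vec_const, Fintype.card_fin, Finsupp.smul_single, smul_eq_mul, mul_one]
    exact Finsupp.single_le_single.2 (Nat.le_ceil a)

theorem Pos.bound (hR : RC R) (b : R →₀ ℝ) : ∃ B : ℝ, ∀ k : ℝ,
    Pos (k • Finsupp.single (1 : R) (1 : ℝ) + b) → -B ≤ k := by
  obtain ⟨u, _, _, z, hz⟩ := exists_vec b
  refine ⟨Fintype.card u + 1, fun k hk => ?_⟩
  by_contra hlt
  push Not at hlt
  obtain ⟨s, t, _, _, _, _, x, y, h1, h2⟩ := hk
  apply not_dle hR (Sum.elim y fun _ : u => (1 : R))
  refine DLe.trans (y := Sum.elim x z) (DLe.of_vec ?_) (h1.sum (DLe.one z))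
  rw [vec_sum, vec_sum, vec_sum, vec_const, vec_const, Fintype.card_unit, Nat.cast_one]
  have h3 : (k + (Fintype.card u + 1)) • Finsupp.single (1 : R) (1 : ℝ) ≤ 0 := by
    rw [Finsupp.smul_single, smul_eq_mul, mul_one, ← Finsupp.single_zero (1 : R)]
    exact Finsupp.single_le_single.2 (by linarith)
  intro r
  have a1 := h2 r
  have a2 := hz r
  have a3 := h3 r
  simp only [Finsupp.coe_add, Finsupp.coe_sub, Finsupp.coe_smul, Pi.add_apply, Pi.sub_apply,
    Pi.smul_apply, smul_eq_mul, Finsupp.coe_zero, Pi.zero_apply] at a1 a3 ⊢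
  nlinarith

/-- The cone. -/
def cone (R : Type) [Ring R] : PointedCone ℝ (R →₀ ℝ) where
  carrier := {w | ∃ b : R →₀ ℝ, ∀ N : ℕ, Pos ((N : ℝ) • w + b)}
  add_mem' := by
    rintro w w' ⟨b, hb⟩ ⟨b', hb'⟩
    refine ⟨b + b', fun N => ((hb N).add (hb' N)).mono (le_of_eq ?_)⟩
    rw [smul_add]
    abel
  zero_mem' := ⟨0, fun N => by simpa using Pos.zero⟩
  smul_mem' := by
    rintro ⟨c, hc⟩ w ⟨b, hb⟩
    refine ⟨b + |w|, fun N => (hb ⌊(N : ℝ) * c⌋₊).mono ?_⟩
    intro r
    have h0 : (0 : ℝ) ≤ N * c := mul_nonneg (Nat.cast_nonneg N) hc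
    have h1 := Nat.floor_le h0
    have h2 := Nat.lt_floor_add_one ((N : ℝ) * c)
    have h3 : (|w| : R →₀ ℝ) r = |w r| := by
      rw [abs, Finsupp.sup_apply, Finsupp.neg_apply, abs]
    change (⌊(N : ℝ) * c⌋₊ : ℝ) * w r + b r ≤ (N : ℝ) * (c * w r) + (b r + (|w| : R →₀ ℝ) r)
    rw [h3]
    rcases abs_cases (w r) with h | h <;> nlinarith

theorem mem_cone {w : R →₀ ℝ} (h : Pos w) : w ∈ cone R :=
  ⟨0, fun N => by simpa using h.nsmul N⟩

theorem exists_state (hR : RC R) : ∃ g : (R →₀ ℝ) →ₗ[ℝ] ℝ, g (Finsupp.single 1 1) = 1 ∧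
    ∀ w, Pos w → 0 ≤ g w := by
  have hne : (Finsupp.single (1 : R) (1 : ℝ)) ≠ 0 := by simp
  let f : (R →₀ ℝ) →ₗ.[ℝ] ℝ := LinearPMap.mkSpanSingleton (Finsupp.single (1 : R) (1 : ℝ)) 1 hne
  have hf : ∀ (c : ℝ) (h : c • Finsupp.single (1 : R) (1 : ℝ) ∈ f.domain), f ⟨_, h⟩ = c := by
    intro c h
    exact (LinearPMap.mkSpanSingleton'_apply _ _ _ c h).trans (by simp)
  have hm : ∀ c : ℝ, c • Finsupp.single (1 : R) (1 : ℝ) ∈ f.domain := fun c =>
    Submodule.smul_mem _ c (Submodule.mem_span_singleton_self _)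
  obtain ⟨g, hg1, hg2⟩ := riesz_extension (cone R) f (by
    rintro ⟨x, hx⟩ hx'
    obtain ⟨c, rfl⟩ := Submodule.mem_span_singleton.1 hx
    rw [hf c hx]
    obtain ⟨b, hb⟩ := hx'
    obtain ⟨B, hB⟩ := Pos.bound hR b
    by_contra hlt
    push Not at hlt
    obtain ⟨N, hN⟩ := exists_nat_gt (B / (-c))
    have h1 := hB (N * c) (by simpa [smul_smul] using hb N)
    rw [div_lt_iff₀ (by linarith)] at hN
    linarith) (by
    intro y
    obtain ⟨u, _, _, z, hz⟩ := exists_vec (-y)
    refine ⟨⟨_, hm (Fintype.card u)⟩, mem_cone ⟨u, u, _, _, _, _, z, fun _ => 1, DLe.one z, ?_⟩⟩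
    rw [vec_const, sub_eq_add_neg]
    exact add_le_add le_rfl (neg_le.1 hz))
  refine ⟨g, ?_, fun w hw => hg2 w (mem_cone hw)⟩
  have := hg1 ⟨_, hm 1⟩
  rw [hf] at this
  simpa using this

end Rk

open Rk Matrix in
theorem rank : RankStmt := by
  intro R _ hR
  obtain ⟨g, hg1, hg⟩ := exists_state hR
  have key : ∀ {s t : Type} [Fintype s] [Fintype t] [DecidableEq s] [DecidableEq t]
      (x : s → R) (y : t → R), DLe x y →
      ∑ i, g (Finsupp.single (x i) 1) ≤ ∑ j, g (Finsupp.single (y j) 1) := by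
    intro s t _ _ _ _ x y h
    have := hg _ ⟨s, t, _, _, _, _, x, y, h, le_rfl⟩
    rw [map_sub, Rk.vec, Rk.vec, map_sum, map_sum] at this
    linarith
  have hnn : ∀ x : R, 0 ≤ g (Finsupp.single x 1) := by
    intro x
    have := key (Empty.elim : Empty → R) (fun _ : Unit => x)
      ⟨0, 0, by ext i; exact i.elim⟩
    simpa using this
  refine ⟨fun x => g (Finsupp.single x 1), hg1, ?_, hnn, ?_, ?_, ?_⟩
  · refine le_antisymm ?_ (hnn 0)
    have := key (fun _ : Unit => (0 : R)) (Empty.elim : Empty → R) ⟨0, 0, by simp⟩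
    simpa using this
  · intro c x d
    have := key (fun _ : Unit => c * x * d) (fun _ : Unit => x)
      ⟨diagonal fun _ => c, diagonal fun _ => d, by simp⟩
    simpa using this
  · intro x y
    have := key (fun _ : Unit => x + y) ![x, y]
      ⟨of fun _ _ => 1, of fun _ _ => 1, by
        ext i j
        simp [Matrix.mul_apply, Fin.sum_univ_two]⟩
    simpa using this
  · intro z u u' v v' h1 h2
    have := key ![u * z * u', v * z * v'] (fun _ : Unit => z)
      ⟨of fun i _ => ![u, v] i, of fun _ j => ![u', v'] j, by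
        ext i j
        fin_cases i <;> fin_cases j <;> simp [Matrix.mul_apply, h1, h2]⟩
    simpa using this

end Crest.Agent.QT
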