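import Crest.Agent.QT.Defs

/-! QB: `x⋆x` and `xx⋆` have the same layers. -/

set_option autoImplicit false

namespace Crest.Agent.QT

lemma semiconj_cfc {B : Type} [CStarAlgebra B] {a b x : B} (ha : IsSelfAdjoint a)
    (hb : IsSelfAdjoint b) (h : x * a = b * x) (f : ℝ → ℝ) (hf : Continuous f) :
    x * cfc f a = cfc f b * x := by
  have : CompactSpace (spectrum ℝ a ∪ spectrum ℝ b : Set ℝ) := isCompact_iff_compactSpace.1
    ((spectrum.isCompact (𝕜 := ℝ) a).union (spectrum.isCompact (𝕜 := ℝ) b))
  have key : ∀ g : C((spectrum ℝ a ∪ spectrum ℝ b : Set ℝ), ℝ),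
      x * cfcHomSuperset ha Set.subset_union_left g =
        cfcHomSuperset hb Set.subset_union_right g * x := by
    intro g
    induction g using ContinuousMap.induction_on_of_compact with
    | const r =>
      have : ContinuousMap.const (spectrum ℝ a ∪ spectrum ℝ b : Set ℝ) r = algebraMap ℝ _ r := rfl
      rw [this, AlgHomClass.commutes, AlgHomClass.commutes, Algebra.commutes]
    | id => rw [cfcHomSuperset_id, cfcHomSuperset_id, h]
    | star_id => rw [map_star, map_star, cfcHomSuperset_id, cfcHomSuperset_id, ha, hb, h]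
    | add f g hf hg => rw [map_add, map_add, mul_add, add_mul, hf, hg]
    | mul f g hf hg => rw [map_mul, map_mul, ← mul_assoc, hf, mul_assoc, hg, mul_assoc]
    | frequently f hf =>
      exact hf.mem_of_closed (isClosed_eq
        (continuous_const.mul (cfcHomSuperset_continuous _ _))
        ((cfcHomSuperset_continuous _ _).mul continuous_const))
  have := key ⟨_, hf.comp continuous_subtype_val⟩
  rw [cfc_apply f a, cfc_apply f b]
  exact this

lemma posPart_sub {B : Type} [CStarAlgebra B] {a : B} (ha : IsSelfAdjoint a) (t : ℝ) :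
    (a - algebraMap ℝ B t)⁺ = cfc (fun s => max (s - t) 0) a := by
  have e : a - algebraMap ℝ B t = cfc (fun s : ℝ => s - t) a := by
    rw [cfc_sub (fun s => s) (fun _ => t) a, cfc_id' ℝ a, cfc_const t a]
  rw [CFC.posPart_def, cfcₙ_eq_cfc, e, ← cfc_comp' (fun s : ℝ => s⁺) (fun s => s - t) a]
  rfl

theorem swap : SwapStmt := by
  intro B _ ρ h
  have key : ∀ (x : B) (t : ℝ), 0 < t →
      ρ ((star x * x - algebraMap ℝ B t)⁺) ≤ ρ ((x * star x - algebraMap ℝ B t)⁺) := by
    intro x t ht
    have ha := IsSelfAdjoint.star_mul_self x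
    have hb := IsSelfAdjoint.mul_star_self x
    have hk : Continuous fun s : ℝ => (max s t)⁻¹ :=
      Continuous.inv₀ (by fun_prop) fun s => (lt_max_of_lt_right ht).ne'
    have e1 := semiconj_cfc ha hb (mul_assoc x (star x) x).symm
      (fun s => (max s t)⁻¹ * max (s - t) 0) (by fun_prop)
    have e2 : cfc (fun s => max (s - t) 0) (star x * x) =
        star x * x * cfc (fun s => (max s t)⁻¹ * max (s - t) 0) (star x * x) := by
      conv_rhs => enter [1]; rw [← cfc_id' ℝ (star x * x)]
      rw [← cfc_mul _ _ _ (by fun_prop) (by fun_prop)]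
      congr 1
      funext s
      rcases le_total s t with c | c
      · rw [max_eq_right (sub_nonpos.2 c)]; simp
      · rw [max_eq_left c, ← mul_assoc, mul_inv_cancel₀ (ht.trans_le c).ne', one_mul]
    rw [posPart_sub ha, posPart_sub hb, e2, mul_assoc, e1,
      cfc_mul _ _ _ hk.continuousOn (by fun_prop), ← mul_assoc, ← mul_assoc]
    exact h.mul _ _ _
  intro x t ht
  refine le_antisymm (key x t ht) ?_
  simpa using key (star x) t ht

end Crest.Agent.QT
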