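import Crest.Agent.QT.Defs

/-! QD: the rank condition gives a normalized 2-quasitrace. -/

set_option autoImplicit false

namespace Crest.Agent.QT

open Crest.OpAlg

lemma RC.card_le {R : Type} [Ring R] (h : RC R) {ι κ : Type} [Fintype ι] [Fintype κ]
    [DecidableEq ι] (C : Matrix ι κ R) (D : Matrix κ ι R) (hCD : C * D = 1) :
    Fintype.card ι ≤ Fintype.card κ := by
  by_contra hlt
  obtain ⟨f⟩ : Nonempty (Fin (Fintype.card κ + 1) ↪ ι) :=
    Function.Embedding.nonempty_of_card_le (by rw [Fintype.card_fin]; omega)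
  let e : Fin (Fintype.card κ) ≃ κ := (Fintype.equivFin κ).symm
  refine h _ (C.submatrix f e) (D.submatrix e f) ?_
  rw [Matrix.submatrix_mul_equiv, hCD, Matrix.submatrix_one _ f.injective]

lemma RC.matrix {R : Type} [Ring R] (h : RC R) : RC (Matrix (Fin 2) (Fin 2) R) := by
  intro m C D hCD
  have := h.card_le (Matrix.comp _ _ _ _ _ C) (Matrix.comp _ _ _ _ _ D) (by
    rw [← Matrix.comp_one, ← hCD]
    ext ⟨i, k⟩ ⟨j, l⟩
    simp only [Matrix.mul_apply, Matrix.comp_apply, Matrix.sum_apply, Fintype.sum_prod_type])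
  simp only [Fintype.card_prod, Fintype.card_fin] at this
  omega

section

variable {C D : Type} [Ring C] [StarRing C] [Algebra ℂ C] [StarModule ℂ C]
  [Ring D] [StarRing D] [Algebra ℂ D] [StarModule ℂ D]

lemma oq_lin {τ : D → ℂ} (h : IsOneQuasitrace τ) {s : Set D}
    (h1 : ∀ x ∈ s, ∀ y ∈ s, x * y = y * x) (h2 : ∀ x ∈ s, ∀ y ∈ s, x * star y = star y * x) :
    (∀ x ∈ s, ∀ y ∈ s, τ (x + y) = τ x + τ y) ∧ ∀ c : ℂ, ∀ x ∈ s, τ (c • x) = c * τ x := by
  have := StarAlgebra.isMulCommutative_adjoin ℂ h1 h2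
  obtain ⟨ha, hs⟩ := h.2.2 (StarAlgebra.adjoin ℂ s) fun x hx y hy => setLike_mul_comm hx hy
  exact ⟨fun x hx y hy => ha x (StarAlgebra.subset_adjoin ℂ s hx) y
    (StarAlgebra.subset_adjoin ℂ s hy), fun c x hx => hs c x (StarAlgebra.subset_adjoin ℂ s hx)⟩

lemma oq_comp {τ : D → ℂ} (h : IsOneQuasitrace τ) (φ : C → D)
    (add : ∀ x y, φ (x + y) = φ x + φ y) (mul : ∀ x y, φ (x * y) = φ x * φ y)
    (smul : ∀ (c : ℂ) x, φ (c • x) = c • φ x) (st : ∀ x, φ (star x) = star (φ x))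
    (r : ℝ) (hr : 0 ≤ r) : IsOneQuasitrace fun x => r * τ (φ x) := by
  refine ⟨fun x => ?_, fun a k ha hk => ?_, fun S hS => ?_⟩
  · obtain ⟨h1, h2, h3⟩ := h.1 (φ x)
    simp only [mul, st]
    refine ⟨by rw [h1], ?_, ?_⟩
    · rw [Complex.im_ofReal_mul, h2, mul_zero]
    · rw [Complex.re_ofReal_mul]
      exact mul_nonneg hr h3
  · have sa : ∀ x, IsSelfAdjoint x → IsSelfAdjoint (φ x) := fun x hx => by
      rw [IsSelfAdjoint, ← st, hx.star_eq]
    simp only [add, smul, h.2.1 _ _ (sa a ha) (sa k hk)]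
    ring
  · obtain ⟨ha, hs⟩ := oq_lin h (s := φ '' S) (by
      rintro _ ⟨x, hx, rfl⟩ _ ⟨y, hy, rfl⟩
      rw [← mul, ← mul, hS x hx y hy]) (by
      rintro _ ⟨x, hx, rfl⟩ _ ⟨y, hy, rfl⟩
      rw [← st, ← mul, ← mul, hS x hx _ (star_mem hy)])
    refine ⟨fun x hx y hy => ?_, fun c x hx => ?_⟩
    · simp only [add, ha _ ⟨x, hx, rfl⟩ _ ⟨y, hy, rfl⟩]
      ring
    · simp only [smul, hs c _ ⟨x, hx, rfl⟩]
      ring

lemma oq_corner {τ : Matrix (Fin 2) (Fin 2) C → ℂ} (h : IsOneQuasitrace τ) :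
    2 * τ (Matrix.single 0 0 1) = τ 1 := by
  have e := (h.1 (Matrix.single 0 1 1)).1
  simp only [Matrix.star_eq_conjTranspose, Matrix.conjTranspose_single, star_one,
    Matrix.single_mul_single_same, mul_one] at e
  have c : (Matrix.single 0 0 1 : Matrix (Fin 2) (Fin 2) C) * Matrix.single 1 1 1 =
      Matrix.single 1 1 1 * Matrix.single 0 0 1 := by
    rw [Matrix.single_mul_single_of_ne _ _ _ _ (by decide),
      Matrix.single_mul_single_of_ne _ _ _ _ (by decide)]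
  have h1 : ∀ x ∈ ({Matrix.single 0 0 1, Matrix.single 1 1 1} : Set (Matrix (Fin 2) (Fin 2) C)),
      ∀ y ∈ ({Matrix.single 0 0 1, Matrix.single 1 1 1} : Set (Matrix (Fin 2) (Fin 2) C)),
      x * y = y * x := by
    rintro x (rfl | rfl) y (rfl | rfl)
    exacts [rfl, c, c.symm, rfl]
  obtain ⟨ha, -⟩ := oq_lin h h1 (by
    intro x hx y hy
    have : star y = y := by
      rcases hy with rfl | rfl <;>
        simp only [Matrix.star_eq_conjTranspose, Matrix.conjTranspose_single, star_one]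
    rw [this]
    exact h1 x hx y hy)
  have := ha _ (Or.inl rfl) _ (Or.inr rfl)
  rw [e, ← two_mul] at this
  rw [← this]
  congr 1
  ext i j
  fin_cases i <;> fin_cases j <;> simp

end

theorem two (hR : RankStmt) (h1 : OneStmt) : TwoStmt := by
  intro A _ hA
  let := CStarAlgebra.spectralOrder A
  have := CStarAlgebra.spectralOrderedRing A
  obtain ⟨ρ, hρ⟩ := hR (CStarMatrix (Fin 2) (Fin 2) A) hA.matrix
  obtain ⟨σ, hσ, hσ1⟩ := h1 (CStarMatrix (Fin 2) (Fin 2) A) ρ hρ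
  have h2 : IsOneQuasitrace fun x : Matrix (Fin 2) (Fin 2) A =>
      ((2 : ℝ) : ℂ) * σ (CStarMatrix.ofMatrix x) :=
    oq_comp hσ CStarMatrix.ofMatrix (fun _ _ => rfl) (fun _ _ => rfl) (fun _ _ => rfl)
      (fun _ => rfl) 2 zero_le_two
  have h3 := oq_comp h2 (fun x : A => Matrix.single (0 : Fin 2) (0 : Fin 2) x)
    (fun _ _ => Matrix.single_add _ _ _ _)
    (fun _ _ => (Matrix.single_mul_single_same _ _ _ _ _).symm)
    (fun _ _ => (Matrix.smul_single _ _ _ _).symm)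
    (fun _ => (Matrix.conjTranspose_single _ _ _).symm) 1 zero_le_one
  simp only [Complex.ofReal_one, one_mul] at h3
  refine ⟨_, h3, ?_, _, h2, fun _ => rfl⟩
  have := oq_corner h2
  have e : σ (CStarMatrix.ofMatrix 1) = 1 := hσ1
  simp only [e] at this
  push_cast at this ⊢
  linear_combination (1 / 2 : ℂ) * this

end Crest.Agent.QT
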