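import Mathlib
import Crest.Agent.QT.Defs

/-! U4: the universal algebra. -/

set_option autoImplicit false

namespace Crest.Agent.QT

open scoped ENNReal BigOperators

noncomputable instance lpCStarU {J : Type} {A : J → Type} [∀ i, Nontrivial (A i)]
    [∀ i, CStarAlgebra (A i)] : CStarAlgebra (lp A ∞) where

/-- coordinate evaluation -/
noncomputable def lpEval {J : Type} {A : J → Type} [∀ i, Nontrivial (A i)]
    [∀ i, CStarAlgebra (A i)] (i : J) : lp A ∞ →⋆ₐ[ℂ] A i where
  toFun f := f i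
  map_one' := rfl
  map_mul' _ _ := rfl
  map_zero' := rfl
  map_add' _ _ := rfl
  commutes' c := by
    rw [Algebra.algebraMap_eq_smul_one, Algebra.algebraMap_eq_smul_one]; rfl
  map_star' _ := rfl

theorem map_word {A B : Type} [CStarAlgebra A] [CStarAlgebra B] (φ : A →⋆ₐ[ℂ] B)
    (x : Fin 3 → A) (w : List L) : φ (word x w) = word (fun i => φ (x i)) w := by
  induction w with
  | nil => simp [word]
  | cons l w ih =>
    have h : ∀ {C : Type} [CStarAlgebra C] (y : Fin 3 → C),
        word y (l :: w) = letter y l * word y w := fun y => by simp [word]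
    rw [h, h, map_mul, ih]
    congr 1
    obtain ⟨i, b⟩ := l
    cases b <;> simp [letter, map_star]

theorem map_ev {A B : Type} [CStarAlgebra A] [CStarAlgebra B] (φ : A →⋆ₐ[ℂ] B)
    (x : Fin 3 → A) (p : Poly) : φ (ev x p) = ev (fun i => φ (x i)) p := by
  unfold ev
  rw [Finsupp.sum, Finsupp.sum, map_sum]
  refine Finset.sum_congr rfl fun w _ => ?_
  rw [map_smul, map_word]

theorem word_append {A : Type} [CStarAlgebra A] (x : Fin 3 → A) (v w : List L) :
    word x (v ++ w) = word x v * word x w := by simp [word]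

theorem star_word {A : Type} [CStarAlgebra A] (x : Fin 3 → A) (w : List L) :
    ∃ v, star (word x w) = word x v := by
  induction w with
  | nil => exact ⟨[], by simp [word]⟩
  | cons l w ih =>
    obtain ⟨v, hv⟩ := ih
    refine ⟨v ++ [(l.1, !l.2)], ?_⟩
    have h : word x (l :: w) = letter x l * word x w := by simp [word]
    rw [h, star_mul, hv, word_append]
    congr 1
    obtain ⟨i, b⟩ := l
    cases b <;> simp [letter, word]

theorem adjoin_le_span {A : Type} [CStarAlgebra A] (x : Fin 3 → A) {a : A}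
    (ha : a ∈ StarAlgebra.adjoin ℂ (Set.range x)) :
    a ∈ Submodule.span ℂ (Set.range (word x)) := by
  induction ha using StarAlgebra.adjoin_induction with
  | mem a ha =>
    obtain ⟨i, rfl⟩ := ha
    exact Submodule.subset_span ⟨[(i, false)], by simp [word, letter]⟩
  | algebraMap c =>
    rw [Algebra.algebraMap_eq_smul_one]
    exact Submodule.smul_mem _ _ (Submodule.subset_span ⟨[], by simp [word]⟩)
  | add a b _ _ ha hb => exact Submodule.add_mem _ ha hb
  | mul a b _ _ ha hb =>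
    clear * - ha hb
    induction ha using Submodule.span_induction with
    | mem a ha =>
      obtain ⟨v, rfl⟩ := ha
      induction hb using Submodule.span_induction with
      | mem b hb =>
        obtain ⟨w, rfl⟩ := hb
        exact Submodule.subset_span ⟨v ++ w, word_append x v w⟩
      | zero => simp
      | add b c _ _ hb hc => rw [mul_add]; exact Submodule.add_mem _ hb hc
      | smul c b _ hb => rw [mul_smul_comm]; exact Submodule.smul_mem _ _ hb
    | zero => simp
    | add a c _ _ ha hc => rw [add_mul]; exact Submodule.add_mem _ ha hc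
    | smul c a _ ha => rw [smul_mul_assoc]; exact Submodule.smul_mem _ _ ha
  | star a _ ha =>
    clear * - ha
    induction ha using Submodule.span_induction with
    | mem a ha =>
      obtain ⟨v, rfl⟩ := ha
      obtain ⟨w, hw⟩ := star_word x v
      exact Submodule.subset_span ⟨w, hw.symm⟩
    | zero => simp
    | add a c _ _ ha hc => rw [star_add]; exact Submodule.add_mem _ ha hc
    | smul c a _ ha => rw [star_smul]; exact Submodule.smul_mem _ _ ha

theorem kernel_contra {H : Type} [NormedAddCommGroup H] [NormedSpace ℂ H] {m : ℕ}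
    (C : Fin (m + 1) → Fin m → H →L[ℂ] H) (D E : Fin m → Fin (m + 1) → H →L[ℂ] H)
    (hCD : ∀ j j', ∑ k, C j k * D k j' = if j = j' then 1 else 0)
    (ξ : Fin (m + 1) → H) (hξ : ξ ≠ 0) (hE : ∀ k, ∑ j, E k j (ξ j) = 0) (K ε : ℝ)
    (hK : 0 ≤ K) (hε : 0 ≤ ε)
    (hC : ∀ j k, ‖C j k‖ ≤ K) (hDE : ∀ k j, ‖D k j - E k j‖ ≤ ε)
    (h : m * (K * ((m + 1) * ε)) < 1) : False := by
  obtain ⟨j0, -, hj0⟩ := Finset.exists_max_image Finset.univ (fun j => ‖ξ j‖) Finset.univ_nonempty
  have hpos : 0 < ‖ξ j0‖ := by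
    by_contra hn
    apply hξ
    funext j
    have := hj0 j (Finset.mem_univ _)
    have h0 : ‖ξ j‖ ≤ 0 := by linarith [not_lt.mp hn]
    simpa using h0
  have e1 : ξ j0 = ∑ k, C j0 k (∑ j, (D k j - E k j) (ξ j)) := by
    have e2 : ∀ k, ∑ j, (D k j - E k j) (ξ j) = ∑ j, D k j (ξ j) := fun k => by
      simp only [ContinuousLinearMap.sub_apply, Finset.sum_sub_distrib, hE k, sub_zero]
    simp only [e2, map_sum]
    rw [Finset.sum_comm]
    have e3 : ∀ j, ∑ k, C j0 k (D k j (ξ j)) = if j0 = j then ξ j else 0 := fun j => by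
      have := congrArg (fun T : H →L[ℂ] H => T (ξ j)) (hCD j0 j)
      simp only [ContinuousLinearMap.sum_apply, ContinuousLinearMap.mul_apply] at this
      rw [this]
      split_ifs <;> simp
    simp [e3]
  have e4 : ∀ k, ‖C j0 k (∑ j, (D k j - E k j) (ξ j))‖ ≤ K * ((m + 1) * ε) * ‖ξ j0‖ := fun k => by
    have e5 : ‖∑ j, (D k j - E k j) (ξ j)‖ ≤ (m + 1) * ε * ‖ξ j0‖ := by
      refine (norm_sum_le _ _).trans ?_
      have : ∀ j ∈ Finset.univ, ‖(D k j - E k j) (ξ j)‖ ≤ ε * ‖ξ j0‖ := fun j _ =>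
        ((D k j - E k j).le_opNorm _).trans
          (mul_le_mul (hDE k j) (hj0 j (Finset.mem_univ _)) (norm_nonneg _) hε)
      refine (Finset.sum_le_card_nsmul _ _ _ this).trans (le_of_eq ?_)
      simp [mul_assoc]
    refine ((C j0 k).le_opNorm _).trans ?_
    rw [mul_assoc]
    exact mul_le_mul (hC j0 k) e5 (norm_nonneg _) hK
  have e6 : ‖ξ j0‖ ≤ m * (K * ((m + 1) * ε)) * ‖ξ j0‖ := by
    conv_lhs => rw [e1]
    refine (norm_sum_le _ _).trans ?_
    refine (Finset.sum_le_card_nsmul _ _ _ fun k _ => e4 k).trans (le_of_eq ?_)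
    simp [mul_assoc]
  nlinarith

theorem norm_le_one_of_rel {A : Type} [CStarAlgebra A] (x : Fin 3 → A) (h : Rel x) (i : Fin 3) :
    ‖x i‖ ≤ 1 := by
  letI := CStarAlgebra.spectralOrder A
  haveI := CStarAlgebra.spectralOrderedRing A
  have h1 : star (x i) * x i ≤ 1 := by
    rw [← h.1]
    exact Finset.single_le_sum (f := fun i => star (x i) * x i)
      (fun j _ => star_mul_self_nonneg _) (Finset.mem_univ i)
  have h2 : ‖star (x i) * x i‖ ≤ 1 :=
    (CStarAlgebra.norm_le_one_iff_of_nonneg _ (star_mul_self_nonneg _)).mpr h1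
  rw [CStarRing.norm_star_mul_self] at h2
  nlinarith [norm_nonneg (x i)]

/-- no near-inverse of the rows `p` -/
def NoInv {B : Type} [CStarAlgebra B] (x : Fin 3 → B) {m : ℕ} (p : Fin m → Fin (m + 1) → Poly) :
    Prop :=
  ∀ (C : Fin (m + 1) → Fin m → B) (D : Fin m → Fin (m + 1) → B) (K ε : ℝ),
    (∀ j j', ∑ k, C j k * D k j' = if j = j' then 1 else 0) → 0 ≤ K → 0 ≤ ε →
    (∀ j k, ‖C j k‖ ≤ K) → (∀ k j, ‖D k j - ev x (p k j)‖ ≤ ε) →
    m * (K * ((m + 1) * ε)) < 1 → False

theorem exists_model (h : PrimalStmt) (m : ℕ) (p : Fin m → Fin (m + 1) → Poly) :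
    ∃ (B : Type) (_ : CStarAlgebra B) (_ : Nontrivial B) (x : Fin 3 → B), Rel x ∧ NoInv x p := by
  obtain ⟨H, i1, i2, i3, x, ξ, hrel, hξ, hker⟩ := h m p
  have hnt : Nontrivial H := by
    obtain ⟨j, hj⟩ := Function.ne_iff.mp hξ
    exact ⟨⟨_, _, hj⟩⟩
  refine ⟨H →L[ℂ] H, inferInstance, inferInstance, x, hrel, ?_⟩
  intro C D K ε hCD hK hε hC hD hlt
  exact kernel_contra C D (fun k j => ev x (p k j)) hCD ξ hξ hker K ε hK hε hC hD hlt

theorem univ (h : PrimalStmt) : UnivStmt := by
  classical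
  let I : Type := Σ m : ℕ, (Fin m → Fin (m + 1) → Poly)
  have h' : ∀ i : I, ∃ (B : Type) (_ : CStarAlgebra B) (_ : Nontrivial B) (x : Fin 3 → B),
      Rel x ∧ NoInv x i.2 := fun i => exists_model h i.1 i.2
  choose B i1 i2 x hrel hker using h'
  let A0 : Type := lp B ∞
  let X : Fin 3 → A0 := fun k => ⟨fun i => x i k,
    memℓp_infty ⟨1, by rintro _ ⟨i, rfl⟩; exact norm_le_one_of_rel (x i) (hrel i) k⟩⟩
  have hX : ∀ i k, lpEval i (X k) = x i k := fun _ _ => rfl
  let S : StarSubalgebra ℂ A0 := (StarAlgebra.adjoin ℂ (Set.range X)).topologicalClosure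
  have hS : IsClosed (S : Set A0) := StarSubalgebra.isClosed_topologicalClosure _
  have hXS : ∀ k, X k ∈ S := fun k =>
    StarSubalgebra.le_topologicalClosure _ (StarAlgebra.subset_adjoin ℂ _ ⟨k, rfl⟩)
  have hcl : (S : Set A0) ⊆ closure (Submodule.span ℂ (Set.range (word X)) : Set A0) :=
    closure_mono fun a ha => adjoin_le_span X ha
  refine ⟨S, inferInstance, ?_, ?_, fun k => ⟨X k, hXS k⟩, ?_, ?_⟩
  · exact (((Set.countable_range (word X)).isSeparable.span (R := ℂ)).closure.mono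
      hcl).separableSpace
  · intro m C D hCD
    obtain ⟨K, hK0, hK⟩ : ∃ K : ℝ, 0 ≤ K ∧ ∀ j k, ‖(C j k : A0)‖ ≤ K := by
      refine ⟨∑ j, ∑ k, ‖(C j k : A0)‖, by positivity, fun j k => ?_⟩
      refine le_trans ?_ (Finset.single_le_sum (f := fun j => ∑ k, ‖(C j k : A0)‖)
        (fun _ _ => by positivity) (Finset.mem_univ j))
      exact Finset.single_le_sum (f := fun k => ‖(C j k : A0)‖)
        (fun _ _ => by positivity) (Finset.mem_univ k)
    obtain ⟨ε, hε, hεK⟩ : ∃ ε : ℝ, 0 < ε ∧ m * (K * ((m + 1) * ε)) < 1 := by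
      refine ⟨1 / (m * (K * (m + 1)) + 1), by positivity, ?_⟩
      have : (m : ℝ) * (K * ((m + 1) * (1 / (m * (K * (m + 1)) + 1)))) =
          (m * (K * (m + 1))) / (m * (K * (m + 1)) + 1) := by ring
      rw [this, div_lt_one (by positivity)]
      linarith
    have happ : ∀ k j, ∃ p : Poly, ‖(D k j : A0) - ev X p‖ ≤ ε := fun k j => by
      obtain ⟨b, hb, hd⟩ := Metric.mem_closure_iff.mp (hcl (D k j).2) ε hε
      obtain ⟨p, rfl⟩ := Finsupp.mem_span_range_iff_exists_finsupp.mp hb
      exact ⟨p, by rw [← dist_eq_norm]; exact hd.le⟩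
    choose p hp using happ
    let i : I := ⟨m, p⟩
    let π : S →⋆ₐ[ℂ] B i := (lpEval i).comp S.subtype
    have hπ : ∀ a : A0, ‖lpEval i a‖ ≤ ‖a‖ := fun a => lp.norm_apply_le_norm (by simp) a i
    refine hker i (fun j k => π (C j k)) (fun k j => π (D k j)) K ε ?_ hK0 hε.le
      (fun j k => (hπ _).trans (hK j k)) (fun k j => ?_) hεK
    · intro j j'
      have := congrArg π (congrFun (congrFun hCD j) j')
      rw [Matrix.mul_apply, map_sum, Matrix.one_apply] at this
      simp only [map_mul] at this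
      rw [this]
      split_ifs <;> simp
    · have e : lpEval i (ev X (p k j)) = ev (x i) (p k j) := map_ev (lpEval i) X _
      refine le_trans (le_of_eq ?_) ((hπ _).trans (hp k j))
      rw [map_sub, e]
      rfl
  · apply Subtype.ext
    refine lp.ext (funext fun i => ?_)
    have := (hrel i).1
    let π : S →⋆ₐ[ℂ] B i := (lpEval i).comp S.subtype
    change π (∑ k, star (⟨X k, hXS k⟩ : S) * ⟨X k, hXS k⟩) = π 1
    rw [map_sum, map_one]
    simp only [map_mul, map_star]
    exact this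
  · change ‖((∑ k, (⟨X k, hXS k⟩ : S) * star ⟨X k, hXS k⟩ : S) : A0)‖ ≤ 1 / 2
    refine lp.norm_le_of_forall_le (by norm_num) fun i => ?_
    let π : S →⋆ₐ[ℂ] B i := (lpEval i).comp S.subtype
    change ‖π (∑ k, (⟨X k, hXS k⟩ : S) * star ⟨X k, hXS k⟩)‖ ≤ 1 / 2
    rw [map_sum]
    simp only [map_mul, map_star]
    exact (hrel i).2

end Crest.Agent.QT
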